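import Vale.Agent.N238X.Level

/-!
# N238X / Curve : the embedding of curves, one level, then all levels and all scales
-/

set_option autoImplicit false

namespace Vale.Agent.N238X

open Finset Vale.Agent.P238 Vale.Agent.P238.H360

variable {Z : Type} {d : Z → Z → ℝ} {κ : ℝ} {N : ℕ}

open Classical in
theorem level (hd : IsCut d) (hκ : 1 ≤ κ) {s : ℕ} (hs : 1 ≤ s) (i u : ℕ) (hu : u + 3 * s ≤ N) :
    ∃ E : (ℕ → Z) → (ℕ → Z) → ℝ, L1 E ∧
      (∀ γ γ' δ, 0 ≤ δ → (∀ v < N, d (γ v) (γ' v) ≤ δ) → E γ γ' ≤ 96 * 64 ^ i * (δ / (κ * s)) *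
        ∑ j ∈ Ico u (u + 3 * s), (ind d κ N γ s i j + ind d κ N γ' s i j)) ∧
      (∀ γ, (∀ j ∈ Ico u (u + 3 * s), Cl d κ N s (fun v => γ (v + 1)) j γ (j + 1) (1 / s)) →
        E γ (fun v => γ (v + 1)) ≤ 172 * 64 ^ i) ∧
      ∀ γ γ', (∀ a ∈ Ico u (u + 3 * s), ∀ b ∈ Ico u (u + 3 * s), κ * s ≤ d (γ a) (γ' b)) →
        ∑ j ∈ Ico (u + s) (u + 2 * s),
          (if eta d κ N γ' s i j = 1 ∧ GG d κ N γ' s i j < 64 ^ i then (1 / 2 : ℝ) else 0) ≤
          E γ γ' := by
  have hs0 : (0 : ℝ) < s := by exact_mod_cast hs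
  have hκ0 : 0 < κ := by linarith
  have hθ : (1 : ℝ) ≤ 64 ^ i := one_le_pow₀ (by norm_num)
  set lam : ℝ := 10 * 64 ^ i / (κ * s) with hlam
  have hl : 0 ≤ lam := by positivity
  obtain ⟨Ω, V, _, _, _, P, h, hP, hone, hh⟩ := hash_exists hd lam hl
  have hsplit : ∀ x y, ∑ ω, P ω * (if h ω x = h ω y then (0 : ℝ) else 1) ≤ lam * d x y := by
    intro x y
    rw [hh]
    linarith [Real.add_one_le_exp (-(lam * d x y))]
  have hcoll : ∀ x y, ∑ ω, P ω * (if h ω x = h ω y then (1 : ℝ) else 0) =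
      Real.exp (-(lam * d x y)) := by
    intro x y
    have e1 : ∀ ω, P ω * (if h ω x = h ω y then (1 : ℝ) else 0) =
        P ω - P ω * (if h ω x = h ω y then (0 : ℝ) else 1) := by
      intro ω
      split_ifs <;> ring
    rw [Finset.sum_congr rfl fun ω _ => e1 ω, Finset.sum_sub_distrib, hone, hh]
    ring
  set J := Ico u (u + 3 * s) with hJ
  have hJN : ∀ j ∈ J, j < N := fun j hj => by
    have := (Finset.mem_Ico.1 hj).2
    omega
  set K := N + 2 with hK
  set F : Ω → ℕ → V → (ℕ → Z) → ℝ := fun ω k v γ =>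
    ∑ j ∈ J, wt d κ N γ s i k j * (if h ω (γ j) = v then 1 else 0) with hF
  refine ⟨fun γ γ' => ∑ ω, P ω * ∑ k ∈ range K, ∑ v, |F ω k v γ - F ω k v γ'|, ?_, ?_, ?_, ?_⟩
  · exact L1.sum _ (fun ω γ γ' => P ω * ∑ k ∈ range K, ∑ v, |F ω k v γ - F ω k v γ'|)
      fun ω _ => (L1.sum _ (fun k γ γ' => ∑ v, |F ω k v γ - F ω k v γ'|) fun k _ =>
        L1.sum _ (fun v γ γ' => |F ω k v γ - F ω k v γ'|) fun v _ => L1.abs _).smul (hP ω)
  · intro γ γ' δ hδ hγ
    have hq : 0 ≤ δ / (κ * s) := by positivity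
    have h1 : ∀ ω, ∑ k ∈ range K, ∑ v, |F ω k v γ - F ω k v γ'| ≤
        ∑ j ∈ J, (56 * 64 ^ i * (δ / (κ * s)) * (ind d κ N γ s i j + ind d κ N γ' s i j) +
          4 * ind d κ N γ s i j * (if h ω (γ j) = h ω (γ' j) then 0 else 1)) := by
      intro ω
      refine (Finset.sum_le_sum fun k _ => hist_le J _ _ (fun j => h ω (γ j)) (fun j => h ω (γ' j))
        fun j => wt_nonneg γ s i k j).trans ?_
      rw [Finset.sum_comm]
      refine Finset.sum_le_sum fun j hj => ?_
      rw [Finset.sum_add_distrib, ← Finset.sum_mul, ← Finset.mul_sum]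
      have e1 := (cl_curve hd hκ hs0 hγ (hJN j hj)).wt i K
      have e2 := mul_le_mul_of_nonneg_right (wt_sum_le (d := d) (κ := κ) (N := N) γ s i K j)
        (show (0 : ℝ) ≤ if h ω (γ j) = h ω (γ' j) then 0 else 1 by split_ifs <;> norm_num)
      linarith
    refine (Finset.sum_le_sum fun ω _ => mul_le_mul_of_nonneg_left (h1 ω) (hP ω)).trans ?_
    simp only [Finset.mul_sum]
    rw [Finset.sum_comm]
    refine Finset.sum_le_sum fun j hj => ?_
    have e1 : ∀ ω, P ω * (56 * 64 ^ i * (δ / (κ * s)) * (ind d κ N γ s i j + ind d κ N γ' s i j) +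
        4 * ind d κ N γ s i j * (if h ω (γ j) = h ω (γ' j) then 0 else 1)) =
        P ω * (56 * 64 ^ i * (δ / (κ * s)) * (ind d κ N γ s i j + ind d κ N γ' s i j)) +
        4 * ind d κ N γ s i j * (P ω * (if h ω (γ j) = h ω (γ' j) then 0 else 1)) := by
      intro ω
      ring
    rw [Finset.sum_congr rfl fun ω _ => e1 ω, Finset.sum_add_distrib, ← Finset.sum_mul, hone,
      ← Finset.mul_sum]
    have i1 := ind_nonneg (d := d) (κ := κ) (N := N) γ s i j
    have i2 := ind_nonneg (d := d) (κ := κ) (N := N) γ' s i j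
    have e2 : ∑ ω, P ω * (if h ω (γ j) = h ω (γ' j) then (0 : ℝ) else 1) ≤
        10 * (64 ^ i * (δ / (κ * s))) := by
      refine (hsplit _ _).trans ((mul_le_mul_of_nonneg_left (hγ j (hJN j hj)) hl).trans
        (le_of_eq ?_))
      rw [hlam]; ring
    have e3 := mul_le_mul_of_nonneg_left e2 (show 0 ≤ 4 * ind d κ N γ s i j by linarith)
    have e4 : 0 ≤ 64 ^ i * (δ / (κ * s)) * ind d κ N γ' s i j := by positivity
    linarith
  · intro γ hcl
    have h1 : ∀ ω, ∑ k ∈ range K, ∑ v, |F ω k v γ - F ω k v fun v => γ (v + 1)| ≤ 172 * 64 ^ i := by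
      intro ω
      have e1 : ∀ k v, |F ω k v γ - F ω k v fun v => γ (v + 1)| ≤
          ((if h ω (γ u) = v then wt d κ N γ s i k u else 0) +
            (if h ω (γ (u + 3 * s)) = v then wt d κ N γ s i k (u + 3 * s) else 0)) +
          |∑ j ∈ J, wt d κ N (fun v => γ (v + 1)) s i k j * (if h ω (γ (j + 1)) = v then 1 else 0) -
            ∑ j ∈ J, wt d κ N γ s i k (j + 1) * (if h ω (γ (j + 1)) = v then 1 else 0)| := by
        intro k v
        set f : ℕ → ℝ := fun j => wt d κ N γ s i k j * (if h ω (γ j) = v then 1 else 0) with hf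
        have e2 : ∑ j ∈ J, f (j + 1) + f u = ∑ j ∈ J, f j + f (u + 3 * s) := by
          rw [hJ, Finset.sum_Ico_add' f u (u + 3 * s) 1,
            ← Finset.sum_Ico_succ_top (Nat.le_add_right u (3 * s)) f,
            Finset.sum_eq_sum_Ico_succ_bot (by omega : u < u + 3 * s + 1) f, add_comm]
        have e3 : f u = (if h ω (γ u) = v then wt d κ N γ s i k u else 0) := by
          simp only [hf]; split_ifs <;> simp
        have e4 : f (u + 3 * s) =
            (if h ω (γ (u + 3 * s)) = v then wt d κ N γ s i k (u + 3 * s) else 0) := by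
          simp only [hf]; split_ifs <;> simp
        have e5 : 0 ≤ f u := mul_nonneg (wt_nonneg _ _ _ _ _) (by split_ifs <;> norm_num)
        have e6 : 0 ≤ f (u + 3 * s) := mul_nonneg (wt_nonneg _ _ _ _ _) (by split_ifs <;> norm_num)
        rw [← e3, ← e4]
        have e7 : F ω k v γ = ∑ j ∈ J, f j := rfl
        have e8 : ∑ j ∈ J, wt d κ N γ s i k (j + 1) * (if h ω (γ (j + 1)) = v then (1 : ℝ) else 0) =
            ∑ j ∈ J, f (j + 1) := rfl
        have e9 : (F ω k v fun v => γ (v + 1)) = ∑ j ∈ J, wt d κ N (fun v => γ (v + 1)) s i k j *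
            (if h ω (γ (j + 1)) = v then (1 : ℝ) else 0) := rfl
        rw [e7, e8, ← e9]
        have e10 := le_abs_self ((F ω k v fun v => γ (v + 1)) - ∑ j ∈ J, f (j + 1))
        have e11 := neg_abs_le ((F ω k v fun v => γ (v + 1)) - ∑ j ∈ J, f (j + 1))
        rw [abs_le]
        constructor <;> linarith
      have e2 : ∀ k ∈ range K, ∑ v, |F ω k v γ - F ω k v fun v => γ (v + 1)| ≤
          (wt d κ N γ s i k u + wt d κ N γ s i k (u + 3 * s)) +
          ∑ j ∈ J, |wt d κ N (fun v => γ (v + 1)) s i k j - wt d κ N γ s i k (j + 1)| := by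
        intro k _
        refine (Finset.sum_le_sum fun v _ => e1 k v).trans ?_
        rw [Finset.sum_add_distrib, Finset.sum_add_distrib, Finset.sum_ite_eq, Finset.sum_ite_eq,
          if_pos (Finset.mem_univ _), if_pos (Finset.mem_univ _)]
        have e3 := hist_le J (fun j => wt d κ N (fun v => γ (v + 1)) s i k j)
          (fun j => wt d κ N γ s i k (j + 1)) (fun j => h ω (γ (j + 1))) (fun j => h ω (γ (j + 1)))
          fun j => wt_nonneg _ _ _ _ _
        simp only [if_true, mul_zero, add_zero] at e3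
        linarith
      refine (Finset.sum_le_sum e2).trans ?_
      rw [Finset.sum_add_distrib, Finset.sum_add_distrib, Finset.sum_comm]
      have e3 := wt_sum_le (d := d) (κ := κ) (N := N) γ s i K u
      have e4 := wt_sum_le (d := d) (κ := κ) (N := N) γ s i K (u + 3 * s)
      have e5 := ind_le_one (d := d) (κ := κ) (N := N) γ s i u
      have e6 := ind_le_one (d := d) (κ := κ) (N := N) γ s i (u + 3 * s)
      have e7 : ∑ j ∈ J, ∑ k ∈ range K,
          |wt d κ N (fun v => γ (v + 1)) s i k j - wt d κ N γ s i k (j + 1)| ≤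
          ∑ _j ∈ J, 28 * 64 ^ i * (1 / (s : ℝ)) * 2 := by
        refine Finset.sum_le_sum fun j hj => ((hcl j hj).wt i K).trans ?_
        refine mul_le_mul_of_nonneg_left ?_ (by positivity)
        linarith [ind_le_one (d := d) (κ := κ) (N := N) (fun v => γ (v + 1)) s i j,
          ind_le_one (d := d) (κ := κ) (N := N) γ s i (j + 1)]
      rw [Finset.sum_const, hJ, Nat.card_Ico, Nat.add_sub_cancel_left, nsmul_eq_mul] at e7
      have e8 : ((3 * s : ℕ) : ℝ) * (28 * 64 ^ i * (1 / (s : ℝ)) * 2) = 168 * 64 ^ i := by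
        push_cast
        field_simp
        norm_num
      rw [e8] at e7
      linarith
    refine (Finset.sum_le_sum fun ω _ => mul_le_mul_of_nonneg_left (h1 ω) (hP ω)).trans ?_
    rw [← Finset.sum_mul, hone, one_mul]
  · intro γ γ' hfar
    set G := (Ico (u + s) (u + 2 * s)).filter
      fun j => eta d κ N γ' s i j = 1 ∧ GG d κ N γ' s i j < 64 ^ i with hG
    have hGJ : G ⊆ J := fun j hj => by
      have := Finset.mem_Ico.1 (Finset.mem_filter.1 hj).1
      exact Finset.mem_Ico.2 (by omega)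
    set kk : ℕ → ℕ := fun j => ⌊lm d κ N γ' (1 / s) j + 1 / 2⌋₊ with hkk
    have hz : ∀ j ∈ G, |lm d κ N γ' (1 / s) j - kk j| ≤ 1 / 2 ∧ kk j ∈ range K := by
      intro j hj
      have e1 := one_le_mass (κ := κ) hd γ' (1 / s) (hJN j (hGJ hj))
      have e2 : 0 ≤ lm d κ N γ' (1 / s) j := Real.log_nonneg e1
      have e3 : (kk j : ℝ) ≤ lm d κ N γ' (1 / s) j + 1 / 2 := Nat.floor_le (by linarith)
      have e4 : lm d κ N γ' (1 / s) j + 1 / 2 < kk j + 1 := Nat.lt_floor_add_one _
      have e5 : lm d κ N γ' (1 / s) j ≤ mass d κ N γ' (1 / s) j - 1 :=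
        Real.log_le_sub_one_of_pos (by linarith)
      have e6 := mass_le (N := N) hd hκ γ' (show 0 ≤ 1 / (s : ℝ) by positivity) j
      refine ⟨by rw [abs_le]; constructor <;> linarith, Finset.mem_range.2 ?_⟩
      have e7 : (kk j : ℝ) < (N + 2 : ℕ) := by push_cast; linarith
      exact_mod_cast e7
    set W : ℝ := 256 * (64 ^ i) ^ 2 / s with hW
    set B : ℕ → ℝ := fun j => mass d κ N γ' W j with hB
    set q : ℕ → ℕ → ℝ := fun j a => Real.exp (-(W * rho d κ γ' j a)) with hq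
    set lost : Ω → ℕ → ℝ := fun ω j => ∑ a ∈ range N, q j a *
      ((if a ∈ J then 0 else 1) + (1 - wt d κ N γ' s i (kk j) a) +
        (if h ω (γ' a) = h ω (γ' j) then 0 else 1)) with hlost
    set c : Ω → ℕ → ℝ := fun ω j =>
      1 - 2 / B j * F ω (kk j) (h ω (γ' j)) γ - 2 / B j * lost ω j with hc
    have hB1 : ∀ j ∈ G, 1 ≤ B j := fun j hj => one_le_mass hd γ' W (hJN j (hGJ hj))
    have hpt : ∀ ω, ∑ j ∈ G, c ω j ≤ ∑ k ∈ range K, ∑ v, |F ω k v γ - F ω k v γ'| := by
      intro ω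
      rw [← Finset.sum_fiberwise_of_maps_to (s := G) (t := range K) (g := kk)
        fun j hj => (hz j hj).2]
      refine Finset.sum_le_sum fun k _ => ?_
      refine overlap J _ ((Finset.filter_subset _ _).trans hGJ) (fun a => wt d κ N γ' s i k a)
        (fun a => h ω (γ' a)) (fun v => F ω k v γ) (fun a => wt_nonneg _ _ _ _ _) ?_ (c ω) ?_
      · intro j hj
        obtain ⟨hj1, hj2⟩ := Finset.mem_filter.1 hj
        show eta d κ N γ' s i j * tau k (lm d κ N γ' (1 / s) j) = 1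
        rw [(Finset.mem_filter.1 hj1).2.1, one_mul, ← hj2]
        exact clamp_one (by linarith [(hz j hj1).1])
      · intro j hj
        obtain ⟨hj1, hj2⟩ := Finset.mem_filter.1 hj
        subst hj2
        have e1 := hB1 j hj1
        set b := ∑ a ∈ J, wt d κ N γ' s i (kk j) a *
          (if h ω (γ' a) = h ω (γ' j) then (1 : ℝ) else 0) with hb
        have e2 : B j - lost ω j ≤ b := by
          have f1 : b = ∑ a ∈ range N, (if a ∈ J then wt d κ N γ' s i (kk j) a *
              (if h ω (γ' a) = h ω (γ' j) then (1 : ℝ) else 0) else 0) := by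
            rw [Finset.sum_ite_mem, Finset.inter_eq_right.2 fun a ha =>
              Finset.mem_range.2 (hJN a ha)]
          rw [f1]
          show ∑ a ∈ range N, q j a - _ ≤ _
          rw [← Finset.sum_sub_distrib]
          refine Finset.sum_le_sum fun a _ => ?_
          have f2 : 0 < q j a := Real.exp_pos _
          have f3 : q j a ≤ 1 := Real.exp_le_one_iff.2 (neg_nonpos.2
            (mul_nonneg (by positivity) (rho_nonneg hd hκ γ' j a)))
          have f4 := wt_nonneg (d := d) (κ := κ) (N := N) γ' s i (kk j) a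
          have f5 := wt_le_one (d := d) (κ := κ) (N := N) γ' s i (kk j) a
          split_ifs <;> nlinarith
        have e3 : 0 ≤ F ω (kk j) (h ω (γ' j)) γ := Finset.sum_nonneg fun a _ =>
          mul_nonneg (wt_nonneg _ _ _ _ _) (by split_ifs <;> norm_num)
        have e4 : 0 ≤ lost ω j := Finset.sum_nonneg fun a _ => mul_nonneg (Real.exp_pos _).le
          (add_nonneg (add_nonneg (by split_ifs <;> norm_num)
            (sub_nonneg.2 (wt_le_one _ _ _ _ _))) (by split_ifs <;> norm_num))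
        have e5 : 0 < 2 / B j := by positivity
        by_cases e6 : B j / 2 ≤ lost ω j
        · left
          have f1 := mul_le_mul_of_nonneg_left e6 e5.le
          have f2 : 2 / B j * (B j / 2) = 1 := by field_simp
          have f3 := mul_nonneg e5.le e3
          simp only [hc]
          linarith
        · right
          have f1 : F ω (kk j) (h ω (γ' j)) γ / b ≤ F ω (kk j) (h ω (γ' j)) γ / (B j / 2) :=
            div_le_div_of_nonneg_left e3 (by linarith) (by linarith)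
          have f2 : F ω (kk j) (h ω (γ' j)) γ / (B j / 2) = 2 / B j * F ω (kk j) (h ω (γ' j)) γ := by
            field_simp
          have f3 := mul_nonneg e5.le e4
          simp only [hc]
          linarith
    refine le_trans ?_ (Finset.sum_le_sum fun ω _ => mul_le_mul_of_nonneg_left (hpt ω) (hP ω))
    rw [← Finset.sum_filter]
    simp only [Finset.mul_sum]
    rw [Finset.sum_comm]
    refine Finset.sum_le_sum fun j hj => ?_
    obtain ⟨hj1, hj2, hj3⟩ := Finset.mem_filter.1 hj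
    have e1 := hB1 j hj
    have e2 : ∑ ω, P ω * F ω (kk j) (h ω (γ' j)) γ ≤ B j / 8 := by
      refine le_trans (le_of_eq ?_) (cross_le hd hκ hs hu (fun a ha => hfar a ha j (hGJ hj))
        (hJN j (hGJ hj)) (hz j hj).1 hj3)
      simp only [hF, Finset.mul_sum]
      rw [Finset.sum_comm]
      refine Finset.sum_congr rfl fun a _ => ?_
      rw [← hcoll, Finset.mul_sum]
      exact Finset.sum_congr rfl fun ω _ => by ring
    have e3 : ∑ ω, P ω * lost ω j ≤ B j / 8 := by
      refine le_trans ?_ (lost_le hd hκ hs hu hj1 hj2 (hz j hj).1 hj3)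
      simp only [hlost, Finset.mul_sum]
      rw [Finset.sum_comm]
      refine Finset.sum_le_sum fun a _ => ?_
      have f1 : ∀ ω, P ω * (q j a * ((if a ∈ J then 0 else 1) + (1 - wt d κ N γ' s i (kk j) a) +
          (if h ω (γ' a) = h ω (γ' j) then 0 else 1))) =
          q j a * (P ω * ((if a ∈ J then 0 else 1) + (1 - wt d κ N γ' s i (kk j) a)) +
          P ω * (if h ω (γ' a) = h ω (γ' j) then 0 else 1)) := fun ω => by ring
      rw [Finset.sum_congr rfl fun ω _ => f1 ω, ← Finset.mul_sum, Finset.sum_add_distrib,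
        ← Finset.sum_mul, hone, one_mul]
      exact mul_le_mul_of_nonneg_left (add_le_add le_rfl (hsplit _ _)) (Real.exp_pos _).le
    have e4 : ∀ ω, P ω * c ω j = P ω - 2 / B j * (P ω * F ω (kk j) (h ω (γ' j)) γ) -
        2 / B j * (P ω * lost ω j) := fun ω => by simp only [hc]; ring
    rw [Finset.sum_congr rfl fun ω _ => e4 ω, Finset.sum_sub_distrib, Finset.sum_sub_distrib, hone,
      ← Finset.mul_sum, ← Finset.mul_sum]
    have e5 : 0 < 2 / B j := by positivity
    have e6 := mul_le_mul_of_nonneg_left e2 e5.le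
    have e7 := mul_le_mul_of_nonneg_left e3 e5.le
    have e8 : 2 / B j * (B j / 8) = 1 / 4 := by field_simp; norm_num
    linarith

theorem geo64 (I : ℕ) : ∑ i ∈ range (I + 1), (64 : ℝ) ^ i ≤ 2 * 64 ^ I := by
  induction I with
  | zero => simp
  | succ I ih =>
    rw [Finset.sum_range_succ, pow_succ]
    have : (0 : ℝ) < 64 ^ I := by positivity
    linarith

theorem geo_ind {X : ℝ} (hX : 0 ≤ X) {f : ℕ → ℝ} (hf1 : ∀ i, f i ≤ 1) (I : ℕ)
    (hf : ∀ i < I, f (i + 1) ≤ 0 ∨ 64 ^ (i + 1) ≤ X) :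
    ∑ i ∈ range (I + 1), 64 ^ i * f i ≤ 1 + 2 * X := by
  induction I with
  | zero =>
    have := hf1 0
    simp only [zero_add, Finset.range_one, Finset.sum_singleton, pow_zero, one_mul]
    linarith
  | succ I ih =>
    rcases hf I (Nat.lt_succ_self I) with h | h
    · rw [Finset.sum_range_succ]
      have h1 := ih fun i hi => hf i (by omega)
      have h2 := mul_nonpos_of_nonneg_of_nonpos (show (0 : ℝ) ≤ 64 ^ (I + 1) by positivity) h
      linarith
    · have h1 : ∑ i ∈ range (I + 1 + 1), (64 : ℝ) ^ i * f i ≤ ∑ i ∈ range (I + 1 + 1), 64 ^ i :=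
        Finset.sum_le_sum fun i _ => mul_le_of_le_one_right (by positivity) (hf1 i)
      have h2 := geo64 (I + 1)
      linarith

theorem ind_sum (hd : IsCut d) (hκ : 1 ≤ κ) (γ : ℕ → Z) {s : ℝ} (hs : 0 < s) (c : ℕ) {j : ℕ}
    (hj : j < N) :
    ∑ i ∈ range (c + 1), 64 ^ i * ind d κ N γ s i j ≤ 1 + 256 * GG d κ N γ s c j := by
  have h0 : 0 ≤ GG d κ N γ s c j := sub_nonneg.2 (lm_anti hd hκ γ (div_le_div_of_nonneg_right
    (one_le_mul_of_one_le_of_one_le (by norm_num) (one_le_pow₀ (one_le_pow₀ (by norm_num))))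
    hs.le) hj)
  have h1 := geo_ind (X := 128 * GG d κ N γ s c j) (by linarith)
    (fun i => ind_le_one (d := d) (κ := κ) (N := N) γ s i j) c fun i hi => ?_
  · linarith
  by_cases h : 0 < eta d κ N γ s (i + 1) j
  · right
    have h2 : GG d κ N γ s i j ≤ GG d κ N γ s c j := by
      refine sub_le_sub_left (lm_anti hd hκ γ (div_le_div_of_nonneg_right ?_ hs.le) hj) _
      refine mul_le_mul_of_nonneg_left (pow_le_pow_left₀ (by positivity) ?_ 2) (by norm_num)
      exact pow_le_pow_right₀ (by norm_num) hi.le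
    have h3 : (0 : ℝ) < 64 ^ i := by positivity
    by_contra h4
    have h5 : 2 * GG d κ N γ s i j / 64 ^ i - 1 ≤ 0 := by
      rw [sub_nonpos, div_le_one h3]
      rw [pow_succ] at h4
      linarith
    exact absurd (clamp_zero h5) h.ne'
  · left
    exact le_of_eq (if_neg h)

theorem first_level {γ : ℕ → Z} {s : ℝ} {c j : ℕ} (h : GG d κ N γ s c j < 64 ^ c) :
    ∃ i ∈ range (c + 1), eta d κ N γ s i j = 1 ∧ GG d κ N γ s i j < 64 ^ i := by
  classical
  have hex : ∃ i, GG d κ N γ s i j < 64 ^ i := ⟨c, h⟩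
  refine ⟨Nat.find hex, Finset.mem_range.2 (Nat.lt_succ_of_le (Nat.find_min' hex h)), ?_,
    Nat.find_spec hex⟩
  rcases h1 : Nat.find hex with _ | i
  · rfl
  · have h2 := not_lt.1 (Nat.find_min hex (show i < Nat.find hex by omega))
    refine clamp_one ?_
    rw [le_sub_iff_add_le, le_div_iff₀ (by positivity)]
    linarith

theorem gap (hd : IsCut d) {c a0 g : ℕ} (hg : g ≤ 2 * 2 ^ c) {D : ℝ} (hD : 0 ≤ D)
    (hDκ : Real.exp 1 * (D + 1) ≤ Real.exp (2 ^ c)) {γ : ℕ → Z}
    (hγ : ∀ u, d (γ u) (γ (u + 1)) ≤ D) {σ σ' : ℝ} (hσ : 0 ≤ σ) (hσ' : 0 < σ')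
    (h1 : 1 / σ' ≤ (2 ^ (c + a0 + g) : ℕ)) (h2 : σ' * 2 ^ a0 ≤ 2 ^ (8 + 12 * c)) {j : ℕ}
    (hj : j < 3 * 2 ^ (c + a0 + g)) :
    lm d (2 ^ c) (4 * 2 ^ (c + a0 + g)) γ σ j - lm d (2 ^ c) (4 * 2 ^ (c + a0 + g)) γ σ' j ≤
      16 * 2 ^ c := by
  set T := 2 ^ (c + a0 + g) with hT
  have hκ : (1 : ℝ) ≤ 2 ^ c := one_le_pow₀ (by norm_num)
  have hj' : (j : ℝ) < 3 * T := by exact_mod_cast hj
  have e1 := one_le_mass (κ := 2 ^ c) (N := 4 * T) hd γ σ (j := j) (by omega)
  have e2 := Real.log_le_log (by linarith) (mass_le (N := 4 * T) hd hκ γ hσ j)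
  have e3 := Real.log_le_log (by positivity)
    (mass_ge (N := 4 * T) hd hκ hD hγ hσ' (j := j) (by push_cast; linarith))
  rw [one_div, Real.log_inv] at e3
  have e4 : ((4 * T : ℕ) : ℝ) * (Real.exp 1 * σ' * (D + 1)) ≤
      2 ^ (10 + 13 * c + g) * Real.exp (2 ^ c) := by
    have f1 : ((4 * T : ℕ) : ℝ) * (Real.exp 1 * σ' * (D + 1)) =
        (4 * 2 ^ (c + g)) * (σ' * 2 ^ a0) * (Real.exp 1 * (D + 1)) := by
      rw [hT]; push_cast; ring
    have f2 : (2 : ℝ) ^ (10 + 13 * c + g) = (4 * 2 ^ (c + g)) * 2 ^ (8 + 12 * c) := by ring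
    rw [f1, f2]
    exact mul_le_mul (mul_le_mul_of_nonneg_left h2 (by positivity)) hDκ (by positivity)
      (by positivity)
  have hT0 : (0 : ℝ) < ((4 * T : ℕ) : ℝ) := by rw [hT]; positivity
  have e5 := Real.log_le_log (by positivity) e4
  rw [Real.log_mul hT0.ne' (by positivity), Real.log_mul (by positivity) (by positivity)
    (x := 2 ^ (10 + 13 * c + g)), Real.log_exp, Real.log_pow] at e5
  have e6 : 10 + 13 * c + g ≤ 15 * 2 ^ c := by
    have := Nat.lt_two_pow_self (n := c)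
    omega
  have e7 : ((10 + 13 * c + g : ℕ) : ℝ) ≤ 15 * 2 ^ c := by exact_mod_cast e6
  have e8 := mul_le_mul e7 (Real.log_two_lt_d9.le.trans (by norm_num : _ ≤ (1 : ℝ)))
    (Real.log_nonneg one_le_two) (by positivity)
  unfold lm
  linarith

theorem avg_le {T w : ℕ} (hw : w ≤ T) {h : ℕ → ℝ} (h0 : ∀ j, 0 ≤ h j) :
    ∑ o ∈ range T, ∑ j ∈ Ico (T + o) (T + o + w), h j ≤ w * ∑ j ∈ range (3 * T), h j := by
  simp only [Finset.sum_Ico_eq_sum_range, Nat.add_sub_cancel_left]
  rw [Finset.sum_comm]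
  have h1 : ∀ r ∈ range w, ∑ o ∈ range T, h (T + o + r) ≤ ∑ j ∈ range (3 * T), h j := by
    intro r hr
    have h2 : ∑ o ∈ range T, h (T + o + r) = ∑ j ∈ Ico (T + r) (T + r + T), h j := by
      rw [Finset.sum_Ico_eq_sum_range, Nat.add_sub_cancel_left]
      exact Finset.sum_congr rfl fun o _ => by rw [Nat.add_right_comm]
    rw [h2]
    refine Finset.sum_le_sum_of_subset_of_nonneg (fun j hj => ?_) fun j _ _ => h0 j
    have := Finset.mem_Ico.1 hj
    have := Finset.mem_range.1 hr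
    exact Finset.mem_range.2 (by omega)
  refine (Finset.sum_le_sum h1).trans (le_of_eq ?_)
  rw [Finset.sum_const, Finset.card_range, nsmul_eq_mul]

theorem tele (L : ℕ → ℝ) (g p : ℕ) :
    ∑ a ∈ range g, (L (p + a) - L a) = ∑ r ∈ range p, (L (g + r) - L r) := by
  have h1 := Finset.sum_range_add L g p
  have h2 := Finset.sum_range_add L p g
  rw [Nat.add_comm p g] at h2
  rw [Finset.sum_sub_distrib, Finset.sum_sub_distrib]
  linarith

theorem pow_W (c : ℕ) : (256 : ℝ) * (64 ^ c) ^ 2 = 2 ^ (8 + 12 * c) := by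
  rw [show (64 : ℝ) = 2 ^ 6 by norm_num, ← pow_mul, ← pow_mul, pow_add]
  congr 1
  · norm_num
  · congr 1
    ring

/-- the sum over the scales of the logarithmic growth of the mass -/
theorem growth_sum (hd : IsCut d) {c a0 g : ℕ} (hc : 1 ≤ c) (hg : g ≤ 2 * 2 ^ c) {D : ℝ}
    (hD : 0 ≤ D) (hDκ : Real.exp 1 * (D + 1) ≤ Real.exp (2 ^ c)) {γ : ℕ → Z}
    (hγ : ∀ u, d (γ u) (γ (u + 1)) ≤ D) {j : ℕ} (hj : j < 3 * 2 ^ (c + a0 + g)) :
    ∑ a ∈ range g, ∑ i ∈ range (c + 1),
      64 ^ i * ind d (2 ^ c) (4 * 2 ^ (c + a0 + g)) γ (2 ^ (a0 + a) : ℕ) i j ≤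
      81922 * c * 2 ^ c := by
  have hκ : (1 : ℝ) ≤ 2 ^ c := one_le_pow₀ (by norm_num)
  set L : ℕ → ℝ := fun n =>
    lm d (2 ^ c) (4 * 2 ^ (c + a0 + g)) γ (2 ^ (8 + 12 * c) / 2 ^ (a0 + n)) j with hL
  have h1 : ∀ a ∈ range g, ∑ i ∈ range (c + 1),
      64 ^ i * ind d (2 ^ c) (4 * 2 ^ (c + a0 + g)) γ (2 ^ (a0 + a) : ℕ) i j ≤
      1 + 256 * (L (8 + 12 * c + a) - L a) := by
    intro a _
    refine (ind_sum hd hκ γ (by positivity) c (by omega)).trans (le_of_eq ?_)
    have e1 : (1 : ℝ) / ((2 ^ (a0 + a) : ℕ) : ℝ) = 2 ^ (8 + 12 * c) / 2 ^ (a0 + (8 + 12 * c + a)) := by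
      push_cast
      field_simp
      ring
    unfold GG
    rw [e1, pow_W, Nat.cast_pow, Nat.cast_ofNat]
  refine (Finset.sum_le_sum h1).trans ?_
  rw [Finset.sum_add_distrib, ← Finset.mul_sum, tele, Finset.sum_const, Finset.card_range,
    nsmul_eq_mul, mul_one]
  have h2 : ∀ r ∈ range (8 + 12 * c), L (g + r) - L r ≤ 16 * 2 ^ c := by
    intro r hr
    have e0 := Finset.mem_range.1 hr
    refine gap hd hg hD hDκ hγ (by positivity) (by positivity) ?_ ?_ hj
    · rw [one_div_div, div_le_iff₀ (by positivity), Nat.cast_pow, Nat.cast_ofNat, ← pow_add]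
      exact pow_le_pow_right₀ (by norm_num) (by omega)
    · rw [div_mul_eq_mul_div, div_le_iff₀ (by positivity)]
      exact mul_le_mul_of_nonneg_left (pow_le_pow_right₀ (by norm_num) (by omega))
        (by positivity)
  have h3 := Finset.sum_le_sum h2
  rw [Finset.sum_const, Finset.card_range, nsmul_eq_mul] at h3
  have h4 : (g : ℝ) ≤ 2 * 2 ^ c := by exact_mod_cast hg
  have h5 : (1 : ℝ) ≤ c := by exact_mod_cast hc
  have h6 := mul_le_mul_of_nonneg_right h5 (show (0 : ℝ) ≤ 2 ^ c by positivity)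
  push_cast at h3
  nlinarith

/-- The embedding of curves: all levels, all scales, averaged over the offsets. -/
theorem curve (hd : IsCut d) {c a0 g : ℕ} (hc : 1 ≤ c) (hg : g ≤ 2 * 2 ^ c) {D : ℝ} (hD : 0 ≤ D)
    (hDκ : Real.exp 1 * (D + 1) ≤ Real.exp (2 ^ c)) :
    ∃ E : (ℕ → Z) → (ℕ → Z) → ℝ, L1 E ∧
      (∀ γ γ' δ, 0 ≤ δ → (∀ u, d (γ u) (γ (u + 1)) ≤ D) → (∀ u, d (γ' u) (γ' (u + 1)) ≤ D) →
        (∀ v < 4 * 2 ^ (c + a0 + g), d (γ v) (γ' v) ≤ δ) → E γ γ' ≤ 2 ^ 28 * c * 2 ^ c * δ) ∧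
      (∀ γ, (∀ u, d (γ u) (γ (u + 1)) ≤ D) → E γ (fun v => γ (v + 1)) ≤ 688 * (2 ^ c) ^ 8) ∧
      ∀ γ γ' (f : ℕ → ℝ), (∀ u, d (γ' u) (γ' (u + 1)) ≤ D) →
        (∀ o < 2 ^ (c + a0 + g), f o ≤ 0 ∨ ∃ a < g, f o ≤ 2 ^ (c + a0 + a) / 2 ∧
          ∀ u < 3 * 2 ^ (a0 + a), ∀ v < 3 * 2 ^ (a0 + a), (2 : ℝ) ^ (c + a0 + a) ≤
            d (γ (2 ^ (c + a0 + g) + o + u)) (γ' (2 ^ (c + a0 + g) + o + v))) →
        ∑ o ∈ range (2 ^ (c + a0 + g)), f o ≤ 2 ^ (c + a0 + g) * E γ γ' := by
  classical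
  have hκ : (1 : ℝ) ≤ 2 ^ c := one_le_pow₀ (by norm_num)
  have hgap := fun γ hγ j hj => growth_sum (a0 := a0) (γ := γ) (j := j) hd hc hg hD hDκ hγ hj
  have hgap2 := fun γ hγ σ σ' h1 h2 h3 h4 j hj =>
    gap (a0 := a0) (γ := γ) (σ := σ) (σ' := σ') (j := j) hd hg hD hDκ hγ h1 h2 h3 h4 hj
  have hTr : (2 : ℝ) ^ (c + a0 + g) = (2 ^ (c + a0 + g) : ℕ) := by push_cast; rfl
  have hsT : ∀ a < g, 4 * 2 ^ (a0 + a) ≤ 2 ^ (c + a0 + g) := fun a ha => by
    rw [show 4 * 2 ^ (a0 + a) = 2 ^ (a0 + a + 2) by ring]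
    exact Nat.pow_le_pow_right (by norm_num) (by omega)
  have hsT2 : ∀ a < g, (2 : ℝ) ^ c * (2 ^ (a0 + a) : ℕ) ≤ (2 ^ (c + a0 + g) : ℕ) := fun a ha => by
    push_cast
    rw [← pow_add]
    exact pow_le_pow_right₀ (by norm_num) (by omega)
  have hst : ∀ a, (2 : ℝ) ^ (c + a0 + a) = 2 ^ c * (2 ^ (a0 + a) : ℕ) := fun a => by
    push_cast; ring
  have hsa : ∀ a, (2 : ℝ) ^ a0 ≤ (2 ^ (a0 + a) : ℕ) := fun a => by
    push_cast
    exact pow_le_pow_right₀ (by norm_num) (by omega)
  rw [hTr]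
  generalize 2 ^ (c + a0 + g) = T at *
  set κ : ℝ := 2 ^ c with hκdef
  choose! E hE using fun o (ho : o < T) a (ha : a < g) i =>
    level (N := 4 * T) hd hκ (s := 2 ^ (a0 + a)) Nat.one_le_two_pow i (T + o)
      (by have := hsT a ha; omega)
  have hg0 : (g : ℝ) ≤ 2 * κ := by rw [hκdef]; exact_mod_cast hg
  rcases Nat.eq_zero_or_pos T with hT0 | hT0
  · subst hT0
    exact ⟨fun _ _ => 0, fun _ _ _ => IsCut.zero, fun _ _ _ _ _ _ _ => by positivity,
      fun _ _ => by positivity, fun _ _ _ _ _ => by simp⟩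
  have hT : (0 : ℝ) < T := by exact_mod_cast hT0
  refine ⟨fun γ γ' => κ / T * ∑ o ∈ range T, ∑ a ∈ range g, ∑ i ∈ range (c + 1), E o a i γ γ',
    ?_, ?_, ?_, ?_⟩
  · exact (L1.sum _ (fun o γ γ' => ∑ a ∈ range g, ∑ i ∈ range (c + 1), E o a i γ γ')
      fun o ho => L1.sum _ (fun a γ γ' => ∑ i ∈ range (c + 1), E o a i γ γ') fun a ha =>
        L1.sum _ (fun i γ γ' => E o a i γ γ') fun i _ =>
          (hE o (Finset.mem_range.1 ho) a (Finset.mem_range.1 ha) i).1).smul (by positivity)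
  · intro γ γ' δ hδ hγ hγ' h
    set H : ℕ → ℕ → ℝ := fun a j => ∑ i ∈ range (c + 1), 64 ^ i *
      (ind d κ (4 * T) γ (2 ^ (a0 + a) : ℕ) i j + ind d κ (4 * T) γ' (2 ^ (a0 + a) : ℕ) i j)
      with hH
    have h1 : ∀ a ∈ range g, ∑ o ∈ range T, ∑ i ∈ range (c + 1), E o a i γ γ' ≤
        288 * (δ / κ) * ∑ j ∈ range (3 * T), H a j := by
      intro a ha
      have ha' := Finset.mem_range.1 ha
      have e1 : ∀ o ∈ range T, ∑ i ∈ range (c + 1), E o a i γ γ' ≤
          96 * (δ / (κ * (2 ^ (a0 + a) : ℕ))) *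
            ∑ j ∈ Ico (T + o) (T + o + 3 * 2 ^ (a0 + a)), H a j := by
        intro o ho
        refine (Finset.sum_le_sum fun i _ =>
          (hE o (Finset.mem_range.1 ho) a ha' i).2.1 γ γ' δ hδ h).trans (le_of_eq ?_)
        simp only [hH]
        rw [Finset.sum_comm, Finset.mul_sum]
        refine Finset.sum_congr rfl fun i _ => ?_
        rw [← Finset.mul_sum]
        ring
      refine (Finset.sum_le_sum e1).trans ?_
      rw [← Finset.mul_sum]
      have e2 := avg_le (T := T) (w := 3 * 2 ^ (a0 + a)) (by have := hsT a ha'; omega)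
        (h := H a) fun j => Finset.sum_nonneg fun i _ => mul_nonneg (by positivity)
          (add_nonneg (ind_nonneg _ _ _ _) (ind_nonneg _ _ _ _))
      refine (mul_le_mul_of_nonneg_left e2 (by positivity)).trans (le_of_eq ?_)
      push_cast
      field_simp
      ring
    have h2 : ∀ j ∈ range (3 * T), ∑ a ∈ range g, H a j ≤ 2 * (81922 * c * κ) := by
      intro j hj
      have e1 := hgap γ hγ j (Finset.mem_range.1 hj)
      have e2 := hgap γ' hγ' j (Finset.mem_range.1 hj)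
      simp only [hH, mul_add, Finset.sum_add_distrib]
      linarith
    have h3 := Finset.sum_le_sum h1
    have h4 := Finset.sum_le_sum h2
    rw [Finset.sum_const, Finset.card_range, nsmul_eq_mul] at h4
    rw [← Finset.mul_sum, Finset.sum_comm, Finset.sum_comm (s := range g)] at h3
    have h5 := h3.trans (mul_le_mul_of_nonneg_left h4 (by positivity))
    refine (mul_le_mul_of_nonneg_left h5 (by positivity)).trans ?_
    have e : κ / T * (288 * (δ / κ) * (((3 * T : ℕ) : ℝ) * (2 * (81922 * c * κ)))) =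
        141561216 * (c * κ * δ) := by
      push_cast
      field_simp
      ring
    rw [e]
    have : 0 ≤ c * κ * δ := by positivity
    linarith
  · intro γ hγ
    have h1 : ∀ o ∈ range T, ∑ a ∈ range g, ∑ i ∈ range (c + 1), E o a i γ (fun v => γ (v + 1)) ≤
        g * (344 * κ ^ 6) := by
      intro o ho
      have ho' := Finset.mem_range.1 ho
      have e1 : ∀ a ∈ range g, ∑ i ∈ range (c + 1), E o a i γ (fun v => γ (v + 1)) ≤
          344 * κ ^ 6 := by
        intro a ha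
        have ha' := Finset.mem_range.1 ha
        have f0 := hsT a ha'
        have f1 : (0 : ℝ) < (2 ^ (a0 + a) : ℕ) := by positivity
        have f2 := hsT2 a ha'
        refine (Finset.sum_le_sum fun i _ => (hE o ho' a ha' i).2.2.1 γ fun j hj W hW => ?_).trans ?_
        · have f3 := Finset.mem_Ico.1 hj
          set s : ℝ := ((2 ^ (a0 + a) : ℕ) : ℝ) with hs
          have f4 : κ ≤ W / s * T := by
            rw [div_mul_eq_mul_div, le_div_iff₀ f1]
            nlinarith
          have f5 : (4 : ℝ) * s ≤ T := by rw [hs]; exact_mod_cast f0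
          refine (lm_shift hd hκ hD hγ (σ := W / s) (T := T) (by positivity) ?_ (by omega)
            (by omega)).trans ?_
          · rw [one_div_div, div_lt_iff₀ (by linarith)]
            nlinarith
          · have f6 : Real.exp (-(W / s * T)) * Real.exp κ ≤ 1 := by
              rw [← Real.exp_add]
              exact Real.exp_le_one_iff.2 (by linarith)
            have f7 := mul_le_mul_of_nonneg_left hDκ (Real.exp_pos (-(W / s * T))).le
            have f8 := mul_le_mul_of_nonneg_left (f7.trans f6) (show 0 ≤ W / s by positivity)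
            have f9 : W * (1 / s) = W / s * 1 := by ring
            rw [f9]
            linarith
        · rw [← Finset.mul_sum]
          have f3 := geo64 c
          have f4 : (64 : ℝ) ^ c = κ ^ 6 := by
            rw [hκdef, ← pow_mul, mul_comm, pow_mul]
            norm_num
          linarith
      refine (Finset.sum_le_sum e1).trans (le_of_eq ?_)
      rw [Finset.sum_const, Finset.card_range, nsmul_eq_mul]
    have h2 := Finset.sum_le_sum h1
    rw [Finset.sum_const, Finset.card_range, nsmul_eq_mul] at h2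
    refine (mul_le_mul_of_nonneg_left h2 (by positivity)).trans ?_
    have e : κ / T * (T * (g * (344 * κ ^ 6))) = g * (344 * κ ^ 7) := by field_simp
    rw [e]
    have := mul_le_mul_of_nonneg_right hg0 (show 0 ≤ 344 * κ ^ 7 by positivity)
    linarith
  · intro γ γ' f hγ' hf
    have e : (T : ℝ) * (κ / T * ∑ o ∈ range T, ∑ a ∈ range g, ∑ i ∈ range (c + 1),
        E o a i γ γ') = ∑ o ∈ range T, κ * ∑ a ∈ range g, ∑ i ∈ range (c + 1), E o a i γ γ' := by
      rw [← Finset.mul_sum]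
      field_simp
    rw [e]
    refine Finset.sum_le_sum fun o ho => ?_
    have ho' := Finset.mem_range.1 ho
    have hnn : ∀ a ∈ range g, 0 ≤ ∑ i ∈ range (c + 1), E o a i γ γ' := fun a ha =>
      Finset.sum_nonneg fun i _ => (hE o ho' a (Finset.mem_range.1 ha) i).1.nonneg _ _
    rcases hf o ho' with h | ⟨a, ha, h1, h2⟩
    · exact h.trans (mul_nonneg (by linarith) (Finset.sum_nonneg hnn))
    refine h1.trans ?_
    rw [hst, mul_div_assoc]
    refine mul_le_mul_of_nonneg_left (le_trans ?_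
      (Finset.single_le_sum hnn (Finset.mem_range.2 ha))) (by linarith)
    refine le_trans ?_ (Finset.sum_le_sum fun i _ => (hE o ho' a ha i).2.2.2 γ γ'
      fun u hu v hv => ?_)
    · rw [Finset.sum_comm]
      have f0 := hsT a ha
      have f1 : (0 : ℝ) < (2 ^ (a0 + a) : ℕ) := by positivity
      have e1 : ∀ j ∈ Ico (T + o + 2 ^ (a0 + a)) (T + o + 2 * 2 ^ (a0 + a)), (1 / 2 : ℝ) ≤
          ∑ i ∈ range (c + 1), (if eta d κ (4 * T) γ' (2 ^ (a0 + a) : ℕ) i j = 1 ∧
            GG d κ (4 * T) γ' (2 ^ (a0 + a) : ℕ) i j < 64 ^ i then (1 / 2 : ℝ) else 0) := by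
        intro j hj
        have f3 := Finset.mem_Ico.1 hj
        have f4 : GG d κ (4 * T) γ' (2 ^ (a0 + a) : ℕ) c j < 64 ^ c := by
          have f5 : (1 : ℝ) ≤ 256 * (64 ^ c) ^ 2 := one_le_mul_of_one_le_of_one_le (by norm_num)
            (one_le_pow₀ (one_le_pow₀ (by norm_num)))
          refine (hgap2 γ' hγ' _ _ (by positivity) (by positivity) ?_ ?_ j (by omega)).trans_lt ?_
          · have f6 : (4 : ℝ) * (2 ^ (a0 + a) : ℕ) ≤ T := by exact_mod_cast f0
            rw [one_div_div, div_le_iff₀ (by linarith)]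
            nlinarith
          · rw [div_mul_eq_mul_div, div_le_iff₀ f1, pow_W]
            exact mul_le_mul_of_nonneg_left (hsa a) (by positivity)
          · rw [show (64 : ℝ) = 32 * 2 by norm_num, mul_pow]
            have f6 : (32 : ℝ) ^ 1 ≤ 32 ^ c := pow_le_pow_right₀ (by norm_num) hc
            exact mul_lt_mul_of_pos_right (by linarith) (by linarith)
        obtain ⟨i, hi, hi2⟩ := first_level f4
        refine le_trans (le_of_eq (if_pos hi2).symm) (Finset.single_le_sum (f := fun i =>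
          if eta d κ (4 * T) γ' (2 ^ (a0 + a) : ℕ) i j = 1 ∧
            GG d κ (4 * T) γ' (2 ^ (a0 + a) : ℕ) i j < 64 ^ i then (1 / 2 : ℝ) else 0)
          (fun i _ => by split_ifs <;> norm_num) hi)
      refine le_trans (le_of_eq ?_) (Finset.sum_le_sum e1)
      rw [Finset.sum_const, Nat.card_Ico, nsmul_eq_mul,
        show T + o + 2 * 2 ^ (a0 + a) - (T + o + 2 ^ (a0 + a)) = 2 ^ (a0 + a) by omega]
      ring
    · obtain ⟨u', rfl⟩ := Nat.exists_eq_add_of_le (Finset.mem_Ico.1 hu).1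
      obtain ⟨v', rfl⟩ := Nat.exists_eq_add_of_le (Finset.mem_Ico.1 hv).1
      rw [← hst]
      exact h2 u' (by have := (Finset.mem_Ico.1 hu).2; omega) v'
        (by have := (Finset.mem_Ico.1 hv).2; omega)

end Vale.Agent.N238X
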