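import Vale.Agent.N238X.Mass

/-!
# N238X / Level : weighted histograms with a hashing rate adapted to the local growth
-/

set_option autoImplicit false

namespace Vale.Agent.N238X

open Finset Vale.Agent.P238 Vale.Agent.P238.H360

variable {Z : Type}

/-- a bump around the integer `k` -/
noncomputable def tau (k : ℕ) (z : ℝ) : ℝ := clamp (2 - 2 * |z - k|)

theorem tau_nonneg (k : ℕ) (z : ℝ) : 0 ≤ tau k z := clamp_nonneg _

theorem tau_lip (k : ℕ) (z z' : ℝ) : |tau k z - tau k z'| ≤ 2 * |z - z'| := by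
  refine (clamp_lip _ _).trans ?_
  have h1 := abs_abs_sub_abs_le_abs_sub (z' - k) (z - k)
  rw [sub_sub_sub_cancel_right, abs_sub_comm z' z] at h1
  rw [sub_sub_sub_cancel_left, ← mul_sub, abs_mul, abs_two]
  linarith

theorem tau_zero {k : ℕ} {z : ℝ} (h : ¬ |z - k| < 1) : tau k z = 0 :=
  clamp_zero (by linarith [not_lt.1 h])

theorem sum_supp (K : ℕ) (z : ℝ) {c : ℝ} (hc : 0 ≤ c) :
    ∑ k ∈ range K, (if |z - k| < 1 then c else 0) ≤ 2 * c := by
  rw [← Finset.sum_filter, Finset.sum_const, nsmul_eq_mul]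
  refine mul_le_mul_of_nonneg_right ?_ hc
  have h1 : (range K).filter (fun k : ℕ => |z - k| < 1) ⊆ {⌊z⌋₊, ⌊z⌋₊ + 1} := by
    intro k hk
    obtain ⟨h2, h3⟩ := abs_lt.1 (Finset.mem_filter.1 hk).2
    have h4 : ⌊z⌋₊ < k + 1 := (Nat.floor_lt' (Nat.succ_ne_zero k)).2 (by push_cast; linarith)
    have h5 : (k : ℝ) < (⌊z⌋₊ + 2 : ℕ) := by
      have := Nat.lt_floor_add_one z
      push_cast
      linarith
    have h6 : k < ⌊z⌋₊ + 2 := by exact_mod_cast h5
    simp only [Finset.mem_insert, Finset.mem_singleton]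
    omega
  exact_mod_cast (Finset.card_le_card h1).trans Finset.card_le_two

theorem tau_sum_le (K : ℕ) (z : ℝ) : ∑ k ∈ range K, tau k z ≤ 2 := by
  refine le_trans (Finset.sum_le_sum fun k _ => ?_)
    ((sum_supp K z zero_le_one).trans (by norm_num))
  split_ifs with h
  · exact clamp_le_one _
  · exact (tau_zero h).le

theorem tau_sum_lip (K : ℕ) (z z' : ℝ) :
    ∑ k ∈ range K, |tau k z - tau k z'| ≤ 8 * |z - z'| := by
  have h0 : 0 ≤ 2 * |z - z'| := by positivity
  have h1 : ∀ k ∈ range K, |tau k z - tau k z'| ≤ (if |z - k| < 1 then 2 * |z - z'| else 0) +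
      (if |z' - k| < 1 then 2 * |z - z'| else 0) := by
    intro k _
    have h2 := tau_lip k z z'
    split_ifs with h3 h4 h4
    · linarith
    · linarith
    · linarith
    · rw [tau_zero h3, tau_zero h4]; simp
  refine (Finset.sum_le_sum h1).trans ?_
  rw [Finset.sum_add_distrib]
  linarith [sum_supp K z h0, sum_supp K z' h0]

theorem hist_le {V : Type} [Fintype V] [DecidableEq V] (J : Finset ℕ) (α α' : ℕ → ℝ)
    (a a' : ℕ → V) (hα : ∀ j, 0 ≤ α j) :
    ∑ v, |∑ j ∈ J, α j * (if a j = v then 1 else 0) - ∑ j ∈ J, α' j * (if a' j = v then 1 else 0)|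
      ≤ ∑ j ∈ J, (|α j - α' j| + 2 * α j * (if a j = a' j then 0 else 1)) := by
  have h1 : ∀ v, |∑ j ∈ J, α j * (if a j = v then (1 : ℝ) else 0) -
      ∑ j ∈ J, α' j * (if a' j = v then 1 else 0)| ≤
      ∑ j ∈ J, |α j * (if a j = v then (1 : ℝ) else 0) - α' j * (if a' j = v then 1 else 0)| := by
    intro v
    rw [← Finset.sum_sub_distrib]
    exact Finset.abs_sum_le_sum_abs _ _
  refine (Finset.sum_le_sum fun v _ => h1 v).trans ?_
  rw [Finset.sum_comm]
  refine Finset.sum_le_sum fun j _ => ?_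
  have hv : ∀ (c : V) (r : ℝ), ∑ v, (if c = v then r else 0) = r := by
    intro c r
    simp
  by_cases h : a j = a' j
  · rw [if_pos h, mul_zero, add_zero, ← h, ← hv (a j) |α j - α' j|]
    refine Finset.sum_le_sum fun v _ => ?_
    split_ifs <;> simp
  · rw [if_neg h, mul_one]
    have h2 : ∀ v, |α j * (if a j = v then (1 : ℝ) else 0) - α' j * (if a' j = v then 1 else 0)| ≤
        (if a j = v then α j else 0) + (if a' j = v then |α' j| else 0) := by
      intro v
      have := hα j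
      split_ifs with h3 h4 h4
      · exact absurd (h3.trans h4.symm) h
      · simp [abs_of_nonneg this]
      · simp
      · simp
    refine (Finset.sum_le_sum fun v _ => h2 v).trans ?_
    rw [Finset.sum_add_distrib, hv, hv]
    have h3 := abs_sub_abs_le_abs_sub (α' j) (α j)
    rw [abs_of_nonneg (hα j), abs_sub_comm] at h3
    linarith

theorem overlap {V : Type} [Fintype V] [DecidableEq V] (J G : Finset ℕ) (hG : G ⊆ J)
    (β : ℕ → ℝ) (b : ℕ → V) (A : V → ℝ) (hβ : ∀ j, 0 ≤ β j) (hβ1 : ∀ j ∈ G, β j = 1)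
    (c : ℕ → ℝ)
    (hc : ∀ j ∈ G, c j ≤ 0 ∨
      c j ≤ 1 - A (b j) / ∑ u ∈ J, β u * (if b u = b j then 1 else 0)) :
    ∑ j ∈ G, c j ≤ ∑ v, |A v - ∑ u ∈ J, β u * (if b u = v then 1 else 0)| := by
  set B : V → ℝ := fun v => ∑ u ∈ J, β u * (if b u = v then 1 else 0) with hB
  have h1 : ∑ j ∈ G, c j ≤ ∑ j ∈ G, max 0 (1 - A (b j) / B (b j)) :=
    Finset.sum_le_sum fun j hj => (hc j hj).elim (fun h => h.trans (le_max_left _ _))
      fun h => h.trans (le_max_right _ _)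
  refine h1.trans ?_
  rw [← Finset.sum_fiberwise_of_maps_to (s := G) (t := univ) (g := b) fun _ _ => Finset.mem_univ _]
  refine Finset.sum_le_sum fun v _ => ?_
  have h2 : ∑ j ∈ G with b j = v, max 0 (1 - A (b j) / B (b j)) =
      ((G.filter fun j => b j = v).card : ℝ) * max 0 (1 - A v / B v) := by
    rw [Finset.sum_congr rfl fun j hj => by rw [(Finset.mem_filter.1 hj).2], Finset.sum_const,
      nsmul_eq_mul]
  have h3 : ((G.filter fun j => b j = v).card : ℝ) ≤ B v := by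
    rw [Finset.card_filter]
    push_cast
    refine le_trans (le_of_eq (Finset.sum_congr rfl fun j hj => ?_))
      (Finset.sum_le_sum_of_subset_of_nonneg hG fun j _ _ =>
        mul_nonneg (hβ j) (by split_ifs <;> norm_num))
    rw [hβ1 j hj, one_mul]
  rw [h2]
  have h4 : (0 : ℝ) ≤ ((G.filter fun j => b j = v).card : ℝ) := Nat.cast_nonneg _
  refine (mul_le_mul_of_nonneg_right h3 (le_max_left _ _)).trans ?_
  rcases le_total (1 - A v / B v) 0 with h5 | h5
  · rw [max_eq_left h5, mul_zero]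
    exact abs_nonneg _
  · rw [max_eq_right h5]
    rcases (h4.trans h3).eq_or_lt with h6 | h6
    · rw [← h6, zero_mul]
      exact abs_nonneg _
    · rw [mul_sub, mul_one, mul_div_cancel₀ _ h6.ne', abs_sub_comm]
      exact le_abs_self _

section level

variable (d : Z → Z → ℝ) (κ : ℝ) (N : ℕ)

/-- the growth of the mass between the coarse rate and the fine rate of level `i` -/
noncomputable def GG (γ : ℕ → Z) (s : ℝ) (i j : ℕ) : ℝ :=
  lm d κ N γ (1 / s) j - lm d κ N γ (256 * (64 ^ i) ^ 2 / s) j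

/-- the activity of level `i` -/
noncomputable def eta (γ : ℕ → Z) (s : ℝ) : ℕ → ℕ → ℝ
  | 0, _ => 1
  | i + 1, j => clamp (2 * GG d κ N γ s i j / 64 ^ i - 1)

/-- the weight of the point `j` in the class `(i, k)` -/
noncomputable def wt (γ : ℕ → Z) (s : ℝ) (i k j : ℕ) : ℝ :=
  eta d κ N γ s i j * tau k (lm d κ N γ (1 / s) j)

/-- the indicator of activity -/
noncomputable def ind (γ : ℕ → Z) (s : ℝ) (i j : ℕ) : ℝ := if 0 < eta d κ N γ s i j then 1 else 0

/-- the masses at two points are close -/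
def Cl (s : ℝ) (γ : ℕ → Z) (j : ℕ) (γ' : ℕ → Z) (j' : ℕ) (ε : ℝ) : Prop :=
  ∀ W : ℝ, 1 ≤ W → |lm d κ N γ (W / s) j - lm d κ N γ' (W / s) j'| ≤ W * ε

variable {d κ N}

theorem eta_nonneg (γ : ℕ → Z) (s : ℝ) (i j : ℕ) : 0 ≤ eta d κ N γ s i j := by
  cases i with
  | zero => exact zero_le_one
  | succ i => exact clamp_nonneg _

theorem eta_le_one (γ : ℕ → Z) (s : ℝ) (i j : ℕ) : eta d κ N γ s i j ≤ 1 := by
  cases i with
  | zero => exact le_rfl
  | succ i => exact clamp_le_one _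

theorem ind_nonneg (γ : ℕ → Z) (s : ℝ) (i j : ℕ) : 0 ≤ ind d κ N γ s i j := by
  unfold ind
  split_ifs <;> norm_num

theorem ind_le_one (γ : ℕ → Z) (s : ℝ) (i j : ℕ) : ind d κ N γ s i j ≤ 1 := by
  unfold ind
  split_ifs <;> norm_num

theorem eta_le_ind (γ : ℕ → Z) (s : ℝ) (i j : ℕ) : eta d κ N γ s i j ≤ ind d κ N γ s i j := by
  unfold ind
  split_ifs with h
  · exact eta_le_one _ _ _ _
  · exact not_lt.1 h

theorem wt_nonneg (γ : ℕ → Z) (s : ℝ) (i k j : ℕ) : 0 ≤ wt d κ N γ s i k j :=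
  mul_nonneg (eta_nonneg _ _ _ _) (tau_nonneg _ _)

theorem wt_le_one (γ : ℕ → Z) (s : ℝ) (i k j : ℕ) : wt d κ N γ s i k j ≤ 1 :=
  mul_le_one₀ (eta_le_one _ _ _ _) (tau_nonneg _ _) (clamp_le_one _)

theorem wt_sum_le (γ : ℕ → Z) (s : ℝ) (i K j : ℕ) :
    ∑ k ∈ range K, wt d κ N γ s i k j ≤ 2 * ind d κ N γ s i j := by
  unfold wt
  rw [← Finset.mul_sum, mul_comm]
  exact mul_le_mul (tau_sum_le K _) (eta_le_ind _ _ _ _) (eta_nonneg _ _ _ _) (by norm_num)

theorem Cl.z {s : ℝ} {γ γ' : ℕ → Z} {j j' : ℕ} {ε : ℝ} (h : Cl d κ N s γ j γ' j' ε) :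
    |lm d κ N γ (1 / s) j - lm d κ N γ' (1 / s) j'| ≤ ε := by
  simpa using h 1 le_rfl

theorem Cl.eta {s : ℝ} {γ γ' : ℕ → Z} {j j' : ℕ} {ε : ℝ} (h : Cl d κ N s γ j γ' j' ε) (i : ℕ) :
    |eta d κ N γ s i j - eta d κ N γ' s i j'| ≤ 10 * 64 ^ i * ε := by
  have h1 := h.z
  have hε : 0 ≤ ε := (abs_nonneg _).trans h1
  cases i with
  | zero =>
    show |(1 : ℝ) - 1| ≤ _
    rw [sub_self, abs_zero]
    positivity
  | succ i =>
    have hθ : (1 : ℝ) ≤ 64 ^ i := one_le_pow₀ (by norm_num)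
    have h2 := h (256 * (64 ^ i) ^ 2) (by nlinarith)
    refine (clamp_lip _ _).trans ?_
    rw [sub_sub_sub_cancel_right, ← sub_div, ← mul_sub, abs_div, abs_mul, abs_two,
      abs_of_pos (show (0 : ℝ) < 64 ^ i by linarith), div_le_iff₀ (by linarith)]
    have h3 : |GG d κ N γ s i j - GG d κ N γ' s i j'| ≤ ε + 256 * (64 ^ i) ^ 2 * ε := by
      unfold GG
      rw [abs_le] at h1 h2 ⊢
      constructor <;> linarith [h1.1, h1.2, h2.1, h2.2]
    have h4 : ε ≤ (64 ^ i) ^ 2 * ε := le_mul_of_one_le_left hε (by nlinarith)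
    rw [pow_succ]
    nlinarith

theorem Cl.wt {s : ℝ} {γ γ' : ℕ → Z} {j j' : ℕ} {ε : ℝ} (h : Cl d κ N s γ j γ' j' ε) (i K : ℕ) :
    ∑ k ∈ range K, |wt d κ N γ s i k j - wt d κ N γ' s i k j'| ≤
      28 * 64 ^ i * ε * (ind d κ N γ s i j + ind d κ N γ' s i j') := by
  have h1 := h.z
  have h2 := h.eta i
  have hε : 0 ≤ ε := (abs_nonneg _).trans h1
  have hθ : (1 : ℝ) ≤ 64 ^ i := one_le_pow₀ (by norm_num)
  have e1 := eta_nonneg (d := d) (κ := κ) (N := N) γ s i j
  have e2 := eta_nonneg (d := d) (κ := κ) (N := N) γ' s i j'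
  by_cases h0 : 0 < N238X.eta d κ N γ s i j ∨ 0 < N238X.eta d κ N γ' s i j'
  · have h3 : 1 ≤ ind d κ N γ s i j + ind d κ N γ' s i j' := by
      have i1 := ind_nonneg (d := d) (κ := κ) (N := N) γ s i j
      have i2 := ind_nonneg (d := d) (κ := κ) (N := N) γ' s i j'
      rcases h0 with h0 | h0
      · have : ind d κ N γ s i j = 1 := if_pos h0
        linarith
      · have : ind d κ N γ' s i j' = 1 := if_pos h0
        linarith
    refine le_trans ?_ (le_mul_of_one_le_right (by positivity) h3)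
    have h4 : ∀ k ∈ range K, |N238X.wt d κ N γ s i k j - N238X.wt d κ N γ' s i k j'| ≤
        10 * 64 ^ i * ε * tau k (lm d κ N γ (1 / s) j) +
          |tau k (lm d κ N γ (1 / s) j) - tau k (lm d κ N γ' (1 / s) j')| := by
      intro k _
      unfold N238X.wt
      set a := N238X.eta d κ N γ s i j
      set a' := N238X.eta d κ N γ' s i j'
      set t := tau k (lm d κ N γ (1 / s) j)
      set t' := tau k (lm d κ N γ' (1 / s) j')
      have h5 : a * t - a' * t' = (a - a') * t + a' * (t - t') := by ring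
      rw [h5]
      refine (abs_add_le _ _).trans (add_le_add ?_ ?_)
      · rw [abs_mul, abs_of_nonneg (tau_nonneg _ _)]
        exact mul_le_mul_of_nonneg_right h2 (tau_nonneg _ _)
      · rw [abs_mul, abs_of_nonneg e2]
        exact mul_le_of_le_one_left (abs_nonneg _) (eta_le_one _ _ _ _)
    refine (Finset.sum_le_sum h4).trans ?_
    rw [Finset.sum_add_distrib, ← Finset.mul_sum]
    have h5 := mul_le_mul_of_nonneg_left (tau_sum_le K (lm d κ N γ (1 / s) j))
      (show 0 ≤ 10 * 64 ^ i * ε by positivity)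
    have h6 := tau_sum_lip K (lm d κ N γ (1 / s) j) (lm d κ N γ' (1 / s) j')
    have h7 : ε ≤ 64 ^ i * ε := le_mul_of_one_le_left hε hθ
    linarith
  · push Not at h0
    rw [Finset.sum_eq_zero]
    · exact mul_nonneg (by positivity) (add_nonneg (ind_nonneg _ _ _ _) (ind_nonneg _ _ _ _))
    · intro k _
      unfold N238X.wt
      rw [le_antisymm h0.1 e1, le_antisymm h0.2 e2]
      simp

theorem cl_center (hd : IsCut d) (hκ : 1 ≤ κ) (hN : 1 ≤ N) {s : ℝ} (hs : 0 < s) (γ : ℕ → Z)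
    (j j' : ℕ) : Cl d κ N s γ j γ j' (rho d κ γ j j' / s) := fun W hW =>
  (lm_center hd hκ hN γ (div_nonneg (by linarith) hs.le) j j').trans (le_of_eq (by ring))

theorem cl_curve (hd : IsCut d) (hκ : 1 ≤ κ) {s : ℝ} (hs : 0 < s) {γ γ' : ℕ → Z} {δ : ℝ}
    (h : ∀ u < N, d (γ u) (γ' u) ≤ δ) {j : ℕ} (hj : j < N) :
    Cl d κ N s γ j γ' j (2 * (δ / (κ * s))) := fun W hW =>
  (lm_curve hd hκ h (div_nonneg (by linarith) hs.le) hj).trans (le_of_eq (by
    field_simp))

/-- the expected mass of the first curve that collides with a point of the second curve -/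
theorem cross_le (hd : IsCut d) (hκ : 1 ≤ κ) {s u : ℕ} (hs : 1 ≤ s) (hu : u + 3 * s ≤ N)
    {γ γ' : ℕ → Z} {i k j : ℕ} (hfar : ∀ a ∈ Ico u (u + 3 * s), κ * s ≤ d (γ a) (γ' j))
    (hj : j < N) (hk : |lm d κ N γ' (1 / s) j - k| ≤ 1 / 2) (hG : GG d κ N γ' s i j < 64 ^ i) :
    ∑ a ∈ Ico u (u + 3 * s), wt d κ N γ s i k a *
      Real.exp (-(10 * 64 ^ i / (κ * s) * d (γ a) (γ' j))) ≤
      mass d κ N γ' (256 * (64 ^ i) ^ 2 / s) j / 8 := by
  classical
  have hs0 : (0 : ℝ) < s := by exact_mod_cast hs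
  have hκ0 : 0 < κ := by linarith
  have hθ : (1 : ℝ) ≤ 64 ^ i := one_le_pow₀ (by norm_num)
  have hB := one_le_mass (κ := κ) hd γ' (256 * (64 ^ i) ^ 2 / s) hj
  set S := (Ico u (u + 3 * s)).filter fun a => |lm d κ N γ (1 / s) a - k| < 1 with hS
  have h1 : ∑ a ∈ Ico u (u + 3 * s), wt d κ N γ s i k a *
      Real.exp (-(10 * 64 ^ i / (κ * s) * d (γ a) (γ' j))) ≤
      ∑ a ∈ S, Real.exp (-(10 * 64 ^ i / (κ * s) * d (γ a) (γ' j))) := by
    rw [hS, Finset.sum_filter]
    refine Finset.sum_le_sum fun a _ => ?_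
    split_ifs with h
    · exact mul_le_of_le_one_left (Real.exp_pos _).le (wt_le_one _ _ _ _ _)
    · unfold wt
      rw [tau_zero h, mul_zero, zero_mul]
  refine h1.trans ?_
  rcases S.eq_empty_or_nonempty with h0 | h0
  · rw [h0, Finset.sum_empty]
    linarith
  obtain ⟨a1, ha1, hmin⟩ := S.exists_min_image (fun a => d (γ a) (γ' j)) h0
  obtain ⟨ha2, ha3⟩ := Finset.mem_filter.1 ha1
  have h2 : ∀ a ∈ S, Real.exp (-(10 * 64 ^ i / (κ * s) * d (γ a) (γ' j))) ≤
      Real.exp (5 - 10 * 64 ^ i) * Real.exp (-(1 / s * rho d κ γ a1 a)) := by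
    intro a ha
    have ha4 := (Finset.mem_filter.1 ha).1
    rw [← Real.exp_add]
    refine Real.exp_le_exp.2 ?_
    have e1 : 1 ≤ d (γ a) (γ' j) / (κ * s) := (one_le_div (by positivity)).2 (hfar a ha4)
    have e2 : d (γ a1) (γ a) / (κ * s) ≤ 2 * (d (γ a) (γ' j) / (κ * s)) := by
      rw [← mul_div_assoc]
      refine div_le_div_of_nonneg_right ?_ (by positivity)
      have e3 := hd.triangle (γ a1) (γ' j) (γ a)
      have e4 := hmin a ha
      rw [hd.symm (γ' j) (γ a)] at e3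
      linarith
    have e3 : |(a1 : ℝ) - a| ≤ 3 * s := by
      obtain ⟨f1, f2⟩ := Finset.mem_Ico.1 ha2
      obtain ⟨f3, f4⟩ := Finset.mem_Ico.1 ha4
      have g1 : (a1 : ℝ) ≤ a + 3 * s := by exact_mod_cast (by omega : a1 ≤ a + 3 * s)
      have g2 : (a : ℝ) ≤ a1 + 3 * s := by exact_mod_cast (by omega : a ≤ a1 + 3 * s)
      rw [abs_le]
      constructor <;> linarith
    have e4 : 1 / (s : ℝ) * rho d κ γ a1 a = d (γ a1) (γ a) / (κ * s) + |(a1 : ℝ) - a| / s := by
      unfold rho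
      field_simp
    have e5 : |(a1 : ℝ) - a| / s ≤ 3 := by rwa [div_le_iff₀ hs0]
    have e6 : 10 * 64 ^ i / (κ * s) * d (γ a) (γ' j) = 10 * 64 ^ i * (d (γ a) (γ' j) / (κ * s)) := by
      ring
    have e7 := mul_le_mul_of_nonneg_left e1 (show (0 : ℝ) ≤ 10 * 64 ^ i - 2 by linarith)
    rw [e4, e6]
    linarith
  refine (Finset.sum_le_sum h2).trans ?_
  rw [← Finset.mul_sum]
  have h3 : ∑ a ∈ S, Real.exp (-(1 / s * rho d κ γ a1 a)) ≤ mass d κ N γ (1 / s) a1 := by
    refine Finset.sum_le_sum_of_subset_of_nonneg (fun a ha => ?_) fun _ _ _ => (Real.exp_pos _).le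
    have := (Finset.mem_Ico.1 (Finset.mem_filter.1 ha).1).2
    exact Finset.mem_range.2 (by omega)
  have ha5 : a1 < N := by
    have := (Finset.mem_Ico.1 ha2).2
    omega
  have h4 : mass d κ N γ (1 / s) a1 = Real.exp (lm d κ N γ (1 / s) a1) :=
    (Real.exp_log (by linarith [one_le_mass (κ := κ) hd γ (1 / s) ha5])).symm
  have h5 : mass d κ N γ' (256 * (64 ^ i) ^ 2 / s) j =
      Real.exp (lm d κ N γ' (256 * (64 ^ i) ^ 2 / s) j) := (Real.exp_log (by linarith)).symm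
  refine (mul_le_mul_of_nonneg_left h3 (Real.exp_pos _).le).trans ?_
  rw [h4, h5, ← Real.exp_add]
  have h6 : 5 - 10 * 64 ^ i + lm d κ N γ (1 / s) a1 ≤
      lm d κ N γ' (256 * (64 ^ i) ^ 2 / s) j + -(5 / 2) := by
    unfold GG at hG
    linarith [(abs_lt.1 ha3).2, (abs_le.1 hk).1]
  refine (Real.exp_le_exp.2 h6).trans ?_
  rw [Real.exp_add, div_eq_mul_inv _ (8 : ℝ), Real.exp_neg]
  refine mul_le_mul_of_nonneg_left (inv_anti₀ (by norm_num) ?_) (Real.exp_pos _).le
  have h7 := Real.sum_le_exp_of_nonneg (x := 5 / 2) (by norm_num) 4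
  simp only [Finset.sum_range_succ, Finset.sum_range_zero, Nat.factorial] at h7
  norm_num at h7
  linarith

/-- the expected mass near a point of a curve that is not in the same class -/
theorem lost_le (hd : IsCut d) (hκ : 1 ≤ κ) {s u : ℕ} (hs : 1 ≤ s) (hu : u + 3 * s ≤ N)
    {γ : ℕ → Z} {i k j : ℕ} (hj : j ∈ Ico (u + s) (u + 2 * s)) (hη : eta d κ N γ s i j = 1)
    (hk : |lm d κ N γ (1 / s) j - k| ≤ 1 / 2) (hG : GG d κ N γ s i j < 64 ^ i) :
    ∑ a ∈ range N, Real.exp (-(256 * (64 ^ i) ^ 2 / s * rho d κ γ j a)) *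
      ((if a ∈ Ico u (u + 3 * s) then 0 else 1) + (1 - wt d κ N γ s i k a) +
        10 * 64 ^ i / (κ * s) * d (γ a) (γ j)) ≤
      mass d κ N γ (256 * (64 ^ i) ^ 2 / s) j / 8 := by
  have hs0 : (0 : ℝ) < s := by exact_mod_cast hs
  have hκ0 : 0 < κ := by linarith
  have hθ : (1 : ℝ) ≤ 64 ^ i := one_le_pow₀ (by norm_num)
  obtain ⟨hj1, hj2⟩ := Finset.mem_Ico.1 hj
  have hjN : j < N := by omega
  have hB := one_le_mass (κ := κ) hd γ (256 * (64 ^ i) ^ 2 / s) hjN
  have h1 : ∀ a ∈ range N, ((if a ∈ Ico u (u + 3 * s) then 0 else 1) + (1 - wt d κ N γ s i k a) +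
      10 * 64 ^ i / (κ * s) * d (γ a) (γ j)) ≤ 23 * 64 ^ i / s * rho d κ γ j a := by
    intro a _
    have hρ := rho_nonneg hd hκ γ j a
    set r := rho d κ γ j a / s with hr
    have hr0 : 0 ≤ r := by positivity
    have hr1 : r = d (γ j) (γ a) / (κ * s) + |(j : ℝ) - a| / s := by
      rw [hr]; unfold rho; field_simp
    have hd0 : 0 ≤ d (γ j) (γ a) / (κ * s) := div_nonneg (hd.nonneg _ _) (by positivity)
    have ha0 : 0 ≤ |(j : ℝ) - a| / s := by positivity
    have e1 : (if a ∈ Ico u (u + 3 * s) then (0 : ℝ) else 1) ≤ r := by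
      split_ifs with h
      · exact hr0
      · have e2 : (s : ℝ) ≤ |(j : ℝ) - a| := by
          rw [Finset.mem_Ico, not_and_or] at h
          rcases h with h | h
          · have : (a : ℝ) + s ≤ j := by exact_mod_cast (by omega : a + s ≤ j)
            exact le_trans (by linarith) (le_abs_self _)
          · have : (j : ℝ) + s ≤ a := by exact_mod_cast (by omega : j + s ≤ a)
            exact le_trans (by linarith) (neg_le_abs _)
        have e3 : 1 ≤ |(j : ℝ) - a| / s := (one_le_div hs0).2 e2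
        linarith
    have hcl := cl_center hd hκ (by omega : 1 ≤ N) hs0 γ j a
    have e2 := (abs_le.1 (hcl.eta i)).2
    rw [hη] at e2
    have e3 := (abs_le.1 (tau_lip k (lm d κ N γ (1 / s) j) (lm d κ N γ (1 / s) a))).2
    have e4 : tau k (lm d κ N γ (1 / s) j) = 1 := clamp_one (by linarith)
    rw [e4] at e3
    have e5 := hcl.z
    have e6 : 1 - wt d κ N γ s i k a ≤ (1 - eta d κ N γ s i a) +
        (1 - tau k (lm d κ N γ (1 / s) a)) := by
      unfold wt
      have f1 := eta_le_one (d := d) (κ := κ) (N := N) γ s i a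
      have f2 : tau k (lm d κ N γ (1 / s) a) ≤ 1 := clamp_le_one _
      nlinarith
    have e7 : 10 * 64 ^ i / (κ * s) * d (γ a) (γ j) ≤ 10 * 64 ^ i * r := by
      rw [hd.symm, div_mul_eq_mul_div, mul_div_assoc]
      exact mul_le_mul_of_nonneg_left (by linarith) (by positivity)
    have e8 : r ≤ 64 ^ i * r := le_mul_of_one_le_left hr0 hθ
    have e9 : 23 * 64 ^ i / s * rho d κ γ j a = 23 * (64 ^ i * r) := by rw [hr]; ring
    rw [e9]
    linarith
  have h2 := jensen (κ := κ) hd γ (1 / s) (256 * (64 ^ i) ^ 2 / s) hjN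
  set B := mass d κ N γ (256 * (64 ^ i) ^ 2 / s) j with hBdef
  set X := ∑ a ∈ range N, Real.exp (-(256 * (64 ^ i) ^ 2 / s * rho d κ γ j a)) * rho d κ γ j a
    with hX
  have hX0 : 0 ≤ X := Finset.sum_nonneg fun a _ =>
    mul_nonneg (Real.exp_pos _).le (rho_nonneg hd hκ γ j a)
  have h3 : ∑ a ∈ range N, Real.exp (-(256 * (64 ^ i) ^ 2 / s * rho d κ γ j a)) *
      ((if a ∈ Ico u (u + 3 * s) then 0 else 1) + (1 - wt d κ N γ s i k a) +
        10 * 64 ^ i / (κ * s) * d (γ a) (γ j)) ≤ 23 * 64 ^ i * (X / s) := by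
    refine (Finset.sum_le_sum fun a ha =>
      mul_le_mul_of_nonneg_left (h1 a ha) (Real.exp_pos _).le).trans (le_of_eq ?_)
    rw [hX, Finset.sum_div, Finset.mul_sum]
    exact Finset.sum_congr rfl fun a _ => by ring
  refine h3.trans ?_
  have h4 : (256 * (64 ^ i) ^ 2 - 1) * (X / s) ≤ B * 64 ^ i := by
    refine le_trans (le_of_eq (by ring)) (h2.trans ?_)
    exact mul_le_mul_of_nonneg_left hG.le (by linarith)
  have h5 : 0 ≤ X / s := by positivity
  have h6 : 1 * (X / s) ≤ (64 ^ i) ^ 2 * (X / s) := mul_le_mul_of_nonneg_right (by nlinarith) h5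
  have h7 : (64 : ℝ) ^ i * (255 * (64 ^ i * (X / s))) ≤ 64 ^ i * B := by linarith
  have h8 := le_of_mul_le_mul_left h7 (by linarith)
  linarith

end level

end Vale.Agent.N238X
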