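import Vale.Agent.N238.Main

/-!
# N238X / Mass : soft masses along a curve in a cut semimetric
-/

set_option autoImplicit false

namespace Vale.Agent.N238X

open Finset Vale.Agent.P238 Vale.Agent.P238.H360

variable {Z : Type}

theorem isCut_real {X : Type} (s : Finset ℝ) : ∀ φ : X → ℝ, (∀ x, φ x ∈ s) →
    IsCut fun x y => |φ x - φ y| := by
  classical
  induction s using Finset.induction_on_max with
  | empty => intro φ h; exact (congrArg IsCut (funext fun x => absurd (h x) (by simp))).mp IsCut.zero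
  | insert a s ha ih =>
    intro φ h
    rcases s.eq_empty_or_nonempty with hs | hs
    · subst hs
      refine (congrArg IsCut ?_).mp IsCut.zero
      funext x y
      have h1 := h x
      have h2 := h y
      simp only [insert_empty_eq, Finset.mem_singleton] at h1 h2
      rw [h1, h2, sub_self, abs_zero]
    · set b := s.max' hs with hb
      have hba : b < a := ha _ (s.max'_mem hs)
      have hcase : ∀ x, φ x = a ∨ φ x ≤ b := fun x =>
        (Finset.mem_insert.1 (h x)).imp id fun hx => s.le_max' _ hx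
      have h1 := ih (fun x => min (φ x) b) (fun x => by
        rcases Finset.mem_insert.1 (h x) with hx | hx
        · rw [hx, min_eq_right hba.le]; exact s.max'_mem hs
        · rw [min_eq_left (s.le_max' _ hx)]; exact hx)
      have h2 : IsCut fun x y : X => (a - b) * (if decide (φ x = a) = decide (φ y = a) then (0 : ℝ)
          else 1) := ⟨Unit, inferInstance, fun _ => a - b, fun _ x => decide (φ x = a),
        fun _ => by linarith, fun x y => by simp⟩
      refine (congrArg IsCut ?_).mp (h1.add h2)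
      funext x y
      rcases hcase x with hx | hx <;> rcases hcase y with hy | hy
      · simp [hx, hy]
      · have hy' : φ y ≠ a := by linarith [hy, hba] |> fun h : φ y < a => h.ne
        rw [hx, min_eq_right hba.le, min_eq_left hy, if_neg (by simp [hy']),
          abs_of_nonneg (by linarith), abs_of_nonneg (by linarith)]
        ring
      · have hx' : φ x ≠ a := by linarith [hx, hba] |> fun h : φ x < a => h.ne
        rw [hy, min_eq_right hba.le, min_eq_left hx, if_neg (by simp [hx']),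
          abs_of_nonpos (by linarith), abs_of_nonpos (by linarith)]
        ring
      · have hx' : φ x ≠ a := (lt_of_le_of_lt hx hba).ne
        have hy' : φ y ≠ a := (lt_of_le_of_lt hy hba).ne
        rw [min_eq_left hx, min_eq_left hy, if_pos (by simp [hx', hy'])]
        ring

/-- `E` is an `ℓ₁` distance: a cut semimetric on every finite family. -/
def L1 {Γ : Type} (E : Γ → Γ → ℝ) : Prop :=
  ∀ (Y : Type) (c : Y → Γ), (Set.range c).Finite → IsCut fun x y => E (c x) (c y)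

theorem L1.abs {Γ : Type} (φ : Γ → ℝ) : L1 fun x y => |φ x - φ y| := by
  intro Y c hc
  refine isCut_real (hc.image φ).toFinset (fun x => φ (c x)) fun x => ?_
  rw [Set.Finite.mem_toFinset]
  exact ⟨c x, ⟨x, rfl⟩, rfl⟩

theorem L1.sum {Γ ι : Type} (s : Finset ι) (E : ι → Γ → Γ → ℝ) (h : ∀ i ∈ s, L1 (E i)) :
    L1 fun x y => ∑ i ∈ s, E i x y :=
  fun Y c hc => IsCut.sum s (fun i x y => E i (c x) (c y)) fun i hi => h i hi Y c hc

theorem L1.smul {Γ : Type} {E : Γ → Γ → ℝ} (h : L1 E) {r : ℝ} (hr : 0 ≤ r) :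
    L1 fun x y => r * E x y := fun Y c hc => (h Y c hc).smul hr

theorem L1.triangle {Γ : Type} {E : Γ → Γ → ℝ} (h : L1 E) (x y z : Γ) :
    E x z ≤ E x y + E y z :=
  (h (Fin 3) ![x, y, z] (Set.finite_range _)).triangle 0 1 2

theorem L1.nonneg {Γ : Type} {E : Γ → Γ → ℝ} (h : L1 E) (x y : Γ) : 0 ≤ E x y :=
  (h (Fin 2) ![x, y] (Set.finite_range _)).nonneg 0 1

/-- truncation to the unit interval -/
noncomputable def clamp (u : ℝ) : ℝ := max 0 (min 1 u)

theorem clamp_nonneg (u : ℝ) : 0 ≤ clamp u := le_max_left _ _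

theorem clamp_le_one (u : ℝ) : clamp u ≤ 1 := max_le zero_le_one (min_le_left _ _)

theorem clamp_lip (u v : ℝ) : |clamp u - clamp v| ≤ |u - v| := by
  unfold clamp
  rw [max_comm 0, max_comm 0]
  refine (abs_max_sub_max_le_abs _ _ _).trans ?_
  have := abs_min_sub_min_le_max 1 u 1 v
  simpa using this

theorem clamp_one {u : ℝ} (h : 1 ≤ u) : clamp u = 1 := by
  unfold clamp
  rw [min_eq_left h, max_eq_right zero_le_one]

theorem clamp_zero {u : ℝ} (h : u ≤ 0) : clamp u = 0 :=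
  max_eq_left ((min_le_right _ _).trans h)

theorem log_sum_le {S : Finset ℕ} (hS : S.Nonempty) {f g : ℕ → ℝ} {ε : ℝ}
    (h : ∀ u ∈ S, f u ≤ g u + ε) :
    Real.log (∑ u ∈ S, Real.exp (f u)) ≤ Real.log (∑ u ∈ S, Real.exp (g u)) + ε := by
  have h1 : 0 < ∑ u ∈ S, Real.exp (f u) := Finset.sum_pos (fun _ _ => Real.exp_pos _) hS
  have h2 : 0 < ∑ u ∈ S, Real.exp (g u) := Finset.sum_pos (fun _ _ => Real.exp_pos _) hS
  have h3 : ∑ u ∈ S, Real.exp (f u) ≤ (∑ u ∈ S, Real.exp (g u)) * Real.exp ε := by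
    rw [Finset.sum_mul]
    exact Finset.sum_le_sum fun u hu => by
      rw [← Real.exp_add]; exact Real.exp_le_exp.2 (h u hu)
  refine (Real.log_le_log h1 h3).trans (le_of_eq ?_)
  rw [Real.log_mul h2.ne' (Real.exp_pos _).ne', Real.log_exp]

theorem log_sum_abs {S : Finset ℕ} (hS : S.Nonempty) {f g : ℕ → ℝ} {ε : ℝ}
    (h : ∀ u ∈ S, |f u - g u| ≤ ε) :
    |Real.log (∑ u ∈ S, Real.exp (f u)) - Real.log (∑ u ∈ S, Real.exp (g u))| ≤ ε := by
  have h1 := log_sum_le hS (f := f) (g := g) (ε := ε) fun u hu => by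
    linarith [(abs_le.1 (h u hu)).2]
  have h2 := log_sum_le hS (f := g) (g := f) (ε := ε) fun u hu => by
    linarith [(abs_le.1 (h u hu)).1]
  rw [abs_le]
  constructor <;> linarith

theorem log_abs_le {a b m ε : ℝ} (hm : 0 < m) (ha : m ≤ a) (hb : m ≤ b) (h : |a - b| ≤ ε) :
    |Real.log a - Real.log b| ≤ ε / m := by
  have key : ∀ a b : ℝ, m ≤ a → m ≤ b → a - b ≤ ε → 0 ≤ ε → Real.log a - Real.log b ≤ ε / m := by
    intro a b ha hb h h0
    have hb0 : 0 < b := by linarith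
    rw [← Real.log_div (by linarith) hb0.ne']
    refine (Real.log_le_sub_one_of_pos (div_pos (by linarith) hb0)).trans ?_
    rw [div_sub_one hb0.ne']
    exact div_le_div₀ h0 h hm hb
  have h0 : 0 ≤ ε := (abs_nonneg _).trans h
  rw [abs_le] at h ⊢
  have h1 := key a b ha hb h.2 h0
  have h2 := key b a hb ha (by linarith) h0
  constructor <;> linarith

section mass

variable (d : Z → Z → ℝ) (κ : ℝ) (N : ℕ)

/-- the distance of two points of a curve, with the difference of the parameters -/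
noncomputable def rho (γ : ℕ → Z) (j u : ℕ) : ℝ := d (γ j) (γ u) / κ + |(j : ℝ) - u|

/-- the soft mass around a point of a curve -/
noncomputable def mass (γ : ℕ → Z) (σ : ℝ) (j : ℕ) : ℝ :=
  ∑ u ∈ range N, Real.exp (-(σ * rho d κ γ j u))

/-- its logarithm -/
noncomputable def lm (γ : ℕ → Z) (σ : ℝ) (j : ℕ) : ℝ := Real.log (mass d κ N γ σ j)

variable {d κ N}

theorem rho_nonneg (hd : IsCut d) (hκ : 1 ≤ κ) (γ : ℕ → Z) (j u : ℕ) : 0 ≤ rho d κ γ j u :=
  add_nonneg (div_nonneg (hd.nonneg _ _) (by linarith)) (abs_nonneg _)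

theorem rho_sub (hd : IsCut d) (hκ : 1 ≤ κ) (γ : ℕ → Z) (j j' u : ℕ) :
    |rho d κ γ j u - rho d κ γ j' u| ≤ rho d κ γ j j' := by
  have hκ0 : 0 < κ := by linarith
  have h1 := div_le_div_of_nonneg_right (hd.triangle (γ j) (γ j') (γ u)) hκ0.le
  have h2 := div_le_div_of_nonneg_right (hd.triangle (γ j') (γ j) (γ u)) hκ0.le
  rw [add_div] at h1 h2
  rw [hd.symm (γ j') (γ j)] at h2
  have h3 := abs_sub_le (j : ℝ) j' u
  have h4 := abs_sub_le (j' : ℝ) j u
  rw [abs_sub_comm (j' : ℝ) j] at h4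
  unfold rho
  rw [abs_le]
  constructor <;> linarith

theorem one_le_mass (hd : IsCut d) (γ : ℕ → Z) (σ : ℝ) {j : ℕ} (hj : j < N) :
    1 ≤ mass d κ N γ σ j := by
  have h1 := Finset.single_le_sum (f := fun u => Real.exp (-(σ * rho d κ γ j u)))
    (fun u _ => (Real.exp_pos _).le) (Finset.mem_range.2 hj)
  have h2 : rho d κ γ j j = 0 := by unfold rho; rw [hd.self]; simp
  simp only [h2, mul_zero, neg_zero, Real.exp_zero] at h1
  exact h1

theorem mass_le (hd : IsCut d) (hκ : 1 ≤ κ) (γ : ℕ → Z) {σ : ℝ} (hσ : 0 ≤ σ) (j : ℕ) :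
    mass d κ N γ σ j ≤ N := by
  have h1 : ∀ u ∈ range N, Real.exp (-(σ * rho d κ γ j u)) ≤ 1 := fun u _ =>
    Real.exp_le_one_iff.2 (neg_nonpos.2 (mul_nonneg hσ (rho_nonneg hd hκ γ j u)))
  have h2 := Finset.sum_le_sum h1
  rw [Finset.sum_const, Finset.card_range, nsmul_eq_mul, mul_one] at h2
  exact h2

theorem lm_anti (hd : IsCut d) (hκ : 1 ≤ κ) (γ : ℕ → Z) {σ σ' : ℝ} (h : σ ≤ σ') {j : ℕ}
    (hj : j < N) : lm d κ N γ σ' j ≤ lm d κ N γ σ j := by
  refine Real.log_le_log (by linarith [one_le_mass (κ := κ) hd γ σ' hj]) ?_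
  exact Finset.sum_le_sum fun u _ => Real.exp_le_exp.2
    (neg_le_neg (mul_le_mul_of_nonneg_right h (rho_nonneg hd hκ γ j u)))

theorem lm_center (hd : IsCut d) (hκ : 1 ≤ κ) (hN : 1 ≤ N) (γ : ℕ → Z) {σ : ℝ} (hσ : 0 ≤ σ)
    (j j' : ℕ) : |lm d κ N γ σ j - lm d κ N γ σ j'| ≤ σ * rho d κ γ j j' := by
  refine log_sum_abs ⟨0, Finset.mem_range.2 hN⟩ fun u _ => ?_
  rw [neg_sub_neg, ← mul_sub, abs_mul, abs_of_nonneg hσ, abs_sub_comm]
  exact mul_le_mul_of_nonneg_left (rho_sub hd hκ γ j j' u) hσ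

theorem lm_curve (hd : IsCut d) (hκ : 1 ≤ κ) {γ γ' : ℕ → Z} {δ : ℝ}
    (h : ∀ u < N, d (γ u) (γ' u) ≤ δ) {σ : ℝ} (hσ : 0 ≤ σ) {j : ℕ} (hj : j < N) :
    |lm d κ N γ σ j - lm d κ N γ' σ j| ≤ σ * (2 * δ / κ) := by
  refine log_sum_abs ⟨j, Finset.mem_range.2 hj⟩ fun u hu => ?_
  rw [neg_sub_neg, ← mul_sub, abs_mul, abs_of_nonneg hσ]
  refine mul_le_mul_of_nonneg_left ?_ hσ
  unfold rho
  rw [add_sub_add_right_eq_sub, ← sub_div, abs_div, abs_of_pos (show 0 < κ by linarith)]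
  refine div_le_div_of_nonneg_right ?_ (by linarith)
  have h1 := h u (Finset.mem_range.1 hu)
  have h2 := h j hj
  have h3 := hd.triangle (γ j) (γ' j) (γ u)
  have h4 := hd.triangle (γ' j) (γ' u) (γ u)
  have h5 := hd.triangle (γ' j) (γ j) (γ' u)
  have h6 := hd.triangle (γ j) (γ u) (γ' u)
  rw [hd.symm (γ' u) (γ u)] at h4
  rw [hd.symm (γ' j) (γ j)] at h5
  rw [abs_le]
  constructor <;> linarith

theorem speed_le (hd : IsCut d) {γ : ℕ → Z} {D : ℝ} (hγ : ∀ u, d (γ u) (γ (u + 1)) ≤ D)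
    (j r : ℕ) : d (γ j) (γ (j + r)) ≤ r * D := by
  induction r with
  | zero => rw [Nat.add_zero, hd.self]; simp
  | succ r ih =>
    have h1 := hd.triangle (γ j) (γ (j + r)) (γ (j + r + 1))
    have h2 := hγ (j + r)
    rw [← Nat.add_assoc]
    push_cast
    linarith

theorem mass_ge (hd : IsCut d) (hκ : 1 ≤ κ) {γ : ℕ → Z} {D : ℝ} (hD : 0 ≤ D)
    (hγ : ∀ u, d (γ u) (γ (u + 1)) ≤ D) {σ : ℝ} (hσ : 0 < σ) {j : ℕ} (hj : j + 1 / σ < N) :
    1 / (Real.exp 1 * σ * (D + 1)) ≤ mass d κ N γ σ j := by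
  set r := ⌊1 / (σ * (D + 1))⌋₊ with hr
  have hr1 : (r : ℝ) ≤ 1 / (σ * (D + 1)) := Nat.floor_le (by positivity)
  have hr2 : 1 / (σ * (D + 1)) < r + 1 := Nat.lt_floor_add_one _
  have hr3 : 1 / (σ * (D + 1)) ≤ 1 / σ :=
    one_div_le_one_div_of_le hσ (le_mul_of_one_le_right hσ.le (by linarith))
  have hjr : j + r < N := by
    have : (j : ℝ) + r < N := by linarith
    exact_mod_cast this
  have h1 : ∑ v ∈ range (r + 1), Real.exp (-(σ * rho d κ γ j (j + v))) ≤ mass d κ N γ σ j := by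
    have h2 : ∑ v ∈ range (r + 1), Real.exp (-(σ * rho d κ γ j (j + v))) =
        ∑ u ∈ Finset.Ico j (j + (r + 1)), Real.exp (-(σ * rho d κ γ j u)) := by
      rw [Finset.sum_Ico_eq_sum_range, Nat.add_sub_cancel_left]
    rw [h2]
    refine Finset.sum_le_sum_of_subset_of_nonneg (fun u hu => ?_) fun _ _ _ => (Real.exp_pos _).le
    have := (Finset.mem_Ico.1 hu).2
    exact Finset.mem_range.2 (by omega)
  have h2 : ∀ v ∈ range (r + 1), Real.exp (-1) ≤ Real.exp (-(σ * rho d κ γ j (j + v))) := by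
    intro v hv
    refine Real.exp_le_exp.2 (neg_le_neg ?_)
    have hv1 : (v : ℝ) ≤ r := by exact_mod_cast Nat.lt_succ_iff.1 (Finset.mem_range.1 hv)
    have hv0 : (0 : ℝ) ≤ v := Nat.cast_nonneg _
    have h3 : rho d κ γ j (j + v) ≤ v * (D + 1) := by
      unfold rho
      have h4 := speed_le hd hγ j v
      have h5 : d (γ j) (γ (j + v)) / κ ≤ d (γ j) (γ (j + v)) := div_le_self (hd.nonneg _ _) hκ
      push_cast
      rw [sub_add_cancel_left, abs_neg, abs_of_nonneg hv0]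
      linarith
    have h4 : (v : ℝ) * (σ * (D + 1)) ≤ 1 := by
      have := hv1.trans hr1
      rwa [le_div_iff₀ (by positivity)] at this
    have h5 := mul_le_mul_of_nonneg_left h3 hσ.le
    linarith
  have h3 := (Finset.sum_le_sum h2).trans h1
  rw [Finset.sum_const, Finset.card_range, nsmul_eq_mul] at h3
  refine le_trans ?_ h3
  have h4 : 1 / (Real.exp 1 * σ * (D + 1)) = 1 / (σ * (D + 1)) * Real.exp (-1) := by
    rw [Real.exp_neg]; field_simp
  rw [h4]
  push_cast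
  exact mul_le_mul_of_nonneg_right hr2.le (Real.exp_pos _).le

theorem lm_shift (hd : IsCut d) (hκ : 1 ≤ κ) {γ : ℕ → Z} {D : ℝ} (hD : 0 ≤ D)
    (hγ : ∀ u, d (γ u) (γ (u + 1)) ≤ D) {σ : ℝ} (hσ : 0 < σ) {j T : ℕ} (hT : 1 / σ < T)
    (hj1 : T ≤ j + 1) (hj2 : j + 1 + T ≤ N) :
    |lm d κ N (fun u => γ (u + 1)) σ j - lm d κ N γ σ (j + 1)| ≤
      Real.exp (-(σ * T)) * (Real.exp 1 * σ * (D + 1)) := by
  have hj2' : (j : ℝ) + 1 + T ≤ N := by exact_mod_cast hj2
  have hj1' : (T : ℝ) ≤ j + 1 := by exact_mod_cast hj1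
  have h1 := mass_ge (N := N) (γ := fun u => γ (u + 1)) hd hκ hD (fun u => hγ (u + 1)) hσ (j := j)
    (by linarith)
  have h2 := mass_ge (N := N) hd hκ hD hγ hσ (j := j + 1) (by push_cast; linarith)
  have h3 : mass d κ N (fun u => γ (u + 1)) σ j + Real.exp (-(σ * rho d κ γ (j + 1) 0)) =
      mass d κ N γ σ (j + 1) + Real.exp (-(σ * rho d κ γ (j + 1) N)) := by
    unfold mass
    rw [← Finset.sum_range_succ (fun u => Real.exp (-(σ * rho d κ γ (j + 1) u))),
      Finset.sum_range_succ']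
    congr 1
    refine Finset.sum_congr rfl fun u _ => ?_
    unfold rho
    push_cast
    rw [add_sub_add_right_eq_sub]
  have h4 : ∀ u : ℕ, (T : ℝ) ≤ |((j + 1 : ℕ) : ℝ) - u| →
      Real.exp (-(σ * rho d κ γ (j + 1) u)) ≤ Real.exp (-(σ * T)) := by
    intro u hu
    refine Real.exp_le_exp.2 (neg_le_neg (mul_le_mul_of_nonneg_left ?_ hσ.le))
    unfold rho
    have := div_nonneg (hd.nonneg (γ (j + 1)) (γ u)) (show 0 ≤ κ by linarith)
    linarith
  have h5 := h4 0 (by push_cast; rw [sub_zero]; exact hj1'.trans (le_abs_self _))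
  have h6 := h4 N (by
    push_cast
    rw [abs_sub_comm]
    exact le_trans (by linarith) (le_abs_self _))
  have h7 := Real.exp_pos (-(σ * rho d κ γ (j + 1) 0))
  have h8 := Real.exp_pos (-(σ * rho d κ γ (j + 1) N))
  have h9 := log_abs_le (by positivity) h1 h2 (ε := Real.exp (-(σ * T)))
    (by rw [abs_le]; constructor <;> linarith)
  rw [div_div_eq_mul_div, div_one] at h9
  exact h9

theorem jensen (hd : IsCut d) (γ : ℕ → Z) (σ σ' : ℝ) {j : ℕ} (hj : j < N) :
    (σ' - σ) * ∑ u ∈ range N, Real.exp (-(σ' * rho d κ γ j u)) * rho d κ γ j u ≤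
      mass d κ N γ σ' j * (lm d κ N γ σ j - lm d κ N γ σ' j) := by
  have h1 := one_le_mass (κ := κ) hd γ σ hj
  have h2 := one_le_mass (κ := κ) hd γ σ' hj
  set G := lm d κ N γ σ j - lm d κ N γ σ' j with hG
  have h3 : Real.exp (-G) * mass d κ N γ σ j = mass d κ N γ σ' j := by
    rw [hG, neg_sub, Real.exp_sub]
    unfold lm
    rw [Real.exp_log (by linarith), Real.exp_log (by linarith)]
    field_simp
  have h4 : ∀ u ∈ range N, Real.exp (-(σ' * rho d κ γ j u)) *
      ((σ' - σ) * rho d κ γ j u - G + 1) ≤ Real.exp (-G) * Real.exp (-(σ * rho d κ γ j u)) := by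
    intro u _
    have h5 := mul_le_mul_of_nonneg_left
      (Real.add_one_le_exp ((σ' - σ) * rho d κ γ j u - G))
      (Real.exp_pos (-(σ' * rho d κ γ j u))).le
    refine h5.trans (le_of_eq ?_)
    rw [← Real.exp_add, ← Real.exp_add]
    congr 1
    ring
  have h5 := Finset.sum_le_sum h4
  rw [← Finset.mul_sum] at h5
  have h6 : ∑ u ∈ range N, Real.exp (-(σ' * rho d κ γ j u)) *
      ((σ' - σ) * rho d κ γ j u - G + 1) =
      (σ' - σ) * ∑ u ∈ range N, Real.exp (-(σ' * rho d κ γ j u)) * rho d κ γ j u +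
        mass d κ N γ σ' j * (1 - G) := by
    unfold mass
    rw [Finset.mul_sum, Finset.sum_mul, ← Finset.sum_add_distrib]
    exact Finset.sum_congr rfl fun u _ => by ring
  rw [h6] at h5
  change _ ≤ Real.exp (-G) * mass d κ N γ σ j at h5
  rw [h3] at h5
  linarith

end mass

end Vale.Agent.N238X
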