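import Vale.Agent.N238X.Words
import Vale.Agent.N238S.Far

/-!
# N238X / Top : the iteration, the asymptotic upper bound and the limit
-/

set_option autoImplicit false

namespace Vale.Agent.N238X

open Finset Filter Vale.Agent.P238 Vale.Agent.P238.Full Vale.Agent.P238.H360 Vale.Agent.N238
  Vale.Agent.N238S

theorem choose_succ (k : ℕ) : (k + 1).choose 2 = k + k.choose 2 := by
  rw [Nat.choose_succ_succ', Nat.choose_one_right]

/-- Each level costs `2 ^ 41 c 2 ^ c`. -/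
theorem iterX {A : Type} [Finite A] (z : A) {c K : ℕ} (hc : 1 ≤ c)
    (hK : 64 * (2 ^ 41 * c * 2 ^ c) ^ (K + 9) ≤ 2 ^ 2 ^ c) :
    ∀ k ≤ K, ∀ m ≤ (2 ^ 41 * c * 2 ^ c) ^ (k.choose 2), ∀ a, ∃ d : (ℕ → A) → (ℕ → A) → ℝ,
      Good4 m a (2 ^ c) (((2 ^ 41 * c * 2 ^ c) ^ (k + 8) : ℕ) : ℝ) d := by
  classical
  set R : ℕ := 2 ^ 41 * c * 2 ^ c with hR
  have hκ : 1 ≤ 2 ^ c := Nat.one_le_two_pow
  have hR2 : 2 ^ 41 * 2 ^ c ≤ R := Nat.mul_le_mul_right _ (Nat.le_mul_of_pos_right _ hc)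
  have hR1 : 1 ≤ R := by omega
  intro k
  induction k with
  | zero =>
    intro _ m hm a
    have := Fintype.ofFinite A
    obtain ⟨d, hd⟩ := H360.base (A := A) m (by simpa using hm)
    exact ⟨d, hd.cut, hd.zero, fun a _ _ x y h => le_trans (by exact_mod_cast h) (hd.lb x y),
      fun p q x y h1 h2 h3 => (hd.ub p q x y h1 h2 h3).trans
        (by exact_mod_cast Nat.one_le_pow _ _ hR1)⟩
  | succ k ih =>
    intro hk m hm a
    have hb : 1 ≤ R ^ k := Nat.one_le_pow _ _ hR1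
    have hD : 1 ≤ R ^ (k + 8) := Nat.one_le_pow _ _ hR1
    have h1 : 64 * R ^ (k + 8) ≤ 2 ^ 2 ^ c :=
      (Nat.mul_le_mul_left _ (Nat.pow_le_pow_right hR1 (by omega))).trans hK
    have h2 : 26 * (R ^ k + 1) * 2 ^ c ≤ 2 ^ 2 ^ c := by
      have e1 : R ^ (k + 1) ≤ R ^ (k + 8) := Nat.pow_le_pow_right hR1 (by omega)
      have e2 : (R ^ k + 1) * 2 ^ c ≤ (2 * R ^ k) * R := Nat.mul_le_mul (by omega) (by omega)
      rw [pow_succ] at e1
      rw [mul_assoc] at e2 ⊢
      omega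
    have hDr : (1 : ℝ) ≤ ((R ^ (k + 8) : ℕ) : ℝ) := by exact_mod_cast hD
    have h3 : Real.exp 1 * (2 * ((R ^ (k + 8) : ℕ) : ℝ) + 1) ≤ Real.exp (2 ^ c) := by
      have e1 : (64 : ℝ) * ((R ^ (k + 8) : ℕ) : ℝ) ≤ 2 ^ 2 ^ c := by exact_mod_cast h1
      have e2 : (2 : ℝ) ^ 2 ^ c ≤ Real.exp 1 ^ 2 ^ c :=
        pow_le_pow_left₀ (by norm_num) (by linarith [Real.exp_one_gt_d9]) _
      rw [← Real.exp_nat_mul, mul_one, Nat.cast_pow, Nat.cast_ofNat] at e2
      have e3 := mul_le_mul_of_nonneg_right (Real.exp_one_lt_d9.le.trans (by norm_num : _ ≤ (3 : ℝ)))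
        (show 0 ≤ 2 * ((R ^ (k + 8) : ℕ) : ℝ) + 1 by positivity)
      linarith
    obtain ⟨d, hd⟩ := stepX z (M := R ^ (k.choose 2)) (b := R ^ k) (m := m)
      (by rwa [choose_succ, pow_add] at hm) hc (Nat.cast_nonneg _) h3 h2
      (fun a => ih (by omega) _ le_rfl a) a
    refine ⟨d, hd.mono le_rfl ?_⟩
    have e1 : (2 ^ c) ^ 8 ≤ R ^ 8 := Nat.pow_le_pow_left (by omega) 8
    have e2 : 2 ^ c ≤ (2 ^ c) ^ 8 := Nat.le_self_pow (by norm_num) _
    have e3 : 104 * ((R ^ k + 1) * (688 * (2 ^ c) ^ 8) +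
        10 * (2 ^ 28 * c * 2 ^ c * (2 * R ^ (k + 8)))) + 26 * (R ^ k + 1) * 2 ^ c ≤
        R ^ (k + 1 + 8) := by
      have f1 : (R ^ k + 1) * (2 ^ c) ^ 8 ≤ 2 * R ^ k * R ^ 8 := Nat.mul_le_mul (by omega) e1
      have f2 : (R ^ k + 1) * 2 ^ c ≤ 2 * R ^ k * R ^ 8 := Nat.mul_le_mul (by omega) (e2.trans e1)
      have f3 : 2 ^ 41 * R ^ (k + 8) ≤ R * R ^ (k + 8) := Nat.mul_le_mul_right _ (by omega)
      have f4 : R * R ^ (k + 8) = 2 ^ 41 * (c * 2 ^ c * R ^ (k + 8)) := by rw [hR]; ring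
      rw [mul_assoc 2, ← pow_add] at f1 f2
      rw [show k + 1 + 8 = k + 8 + 1 by ring, pow_succ' R (k + 8)]
      generalize R ^ (k + 8) = Q at *
      generalize (2 ^ c) ^ 8 = P at *
      generalize R ^ k + 1 = B at *
      generalize 2 ^ c = κ at *
      have f5 : 104 * (B * (688 * P) + 10 * (2 ^ 28 * c * κ * (2 * Q))) + 26 * B * κ =
          71552 * (B * P) + 2080 * 2 ^ 28 * (c * κ * Q) + 26 * (B * κ) := by ring
      rw [f5]
      omega
    exact_mod_cast e3

section words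

variable {α : Type}

theorem lip_pad {M : ℕ} {D : ℝ} {d : (ℕ → α) → (ℕ → α) → ℝ} (hc : IsCut d)
    (hub : ∀ p q x y, p ≤ q → q < M → Sh M p q x y → d x y ≤ D)
    (c : α) {k : ℕ} {x y : List α} (h : EditSteps k x y) (hx : x.length + k ≤ M) :
    d (pad c x) (pad c y) ≤ D * k := by
  have hstep : ∀ {x y : List α}, EditStep x y → x.length ≤ M → y.length ≤ M →
      d (pad c x) (pad c y) ≤ D := by
    intro x y h hx hy
    have key : ∀ (u v : List α) (a : α), (u ++ a :: v).length ≤ M →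
        d (pad c (u ++ a :: v)) (pad c (u ++ v)) ≤ D := by
      intro u v a hl
      simp only [List.length_append, List.length_cons] at hl
      refine hub u.length (M - 1) _ _ (by omega) (by omega)
        ⟨fun t ht => ?_, fun t ht1 ht2 => ?_, fun t ht1 ht2 => by omega⟩
      · rw [pad_append_left c u _ ht, pad_append_left c u _ ht]
      · obtain ⟨r, rfl⟩ := Nat.exists_eq_add_of_le ht1
        rw [pad_append_right, Nat.add_assoc, pad_append_right, pad_cons_succ]
    cases h with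
    | ins u v a =>
      rw [hc.symm]
      exact key u v a hy
    | del u v a => exact key u v a hx
    | sub u v a b =>
      simp only [List.length_append, List.length_cons] at hx
      refine hub u.length u.length _ _ le_rfl (by omega)
        ⟨fun t ht => ?_, fun t ht1 ht2 => by omega, fun t ht1 ht2 => ?_⟩
      · rw [pad_append_left c u _ ht, pad_append_left c u _ ht]
      · obtain ⟨r, rfl⟩ := Nat.exists_eq_add_of_lt ht1
        rw [Nat.add_assoc, pad_append_right, pad_append_right, pad_cons_succ, pad_cons_succ]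
  induction h with
  | refl x => rw [hc.self]; simp
  | @tail k x y z h1 h2 ih =>
    have h3 := (steps_length h1).2
    have h4 := (steps_length (EditSteps.single h2)).2
    have h5 := hstep h2 (by omega) (by omega)
    have h6 := ih (by omega)
    have h7 := hc.triangle (pad c x) (pad c y) (pad c z)
    push_cast
    linarith

/-- Gluing the thresholds. -/
theorem glue {n : ℕ} {D : ℝ} (hD : 0 ≤ D)
    (h : ∀ j, ∃ d : (ℕ → Option α) → (ℕ → Option α) → ℝ, Good4 (2 * n) j 1 D d) :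
    ∃ d : {l : List α // l.length ≤ n} → {l : List α // l.length ≤ n} → ℝ, IsCut d ∧
      (∀ x y, d x y ≤ 2 * ((Nat.log 2 n + 1 : ℕ) : ℝ) * D * upToED α n x y) ∧
      ∀ x y, upToED α n x y ≤ d x y := by
  classical
  choose E hE using h
  set φ : {l : List α // l.length ≤ n} → ℕ → Option α := fun x => pad none (x.1.map some) with hφ
  refine ⟨fun x y => 2 * ∑ j ∈ range (Nat.log 2 n + 1), E j (φ x) (φ y), ?_, fun x y => ?_,
    fun x y => ?_⟩
  · exact (IsCut.sum _ (fun j x y => E j (φ x) (φ y)) fun j _ => (hE j).cut.comap φ).smul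
      (by norm_num)
  · have h1 := ED_le_max (x.1.map some) (y.1.map some)
    rw [List.length_map, List.length_map] at h1
    have h2 : ∀ j ∈ range (Nat.log 2 n + 1), E j (φ x) (φ y) ≤ D * upToED α n x y := by
      intro j _
      have h5 := lip_pad (hE j).cut (hE j).ub none (ED_steps (x.1.map some) (y.1.map some))
        (by rw [List.length_map]; have := x.2; have := y.2; omega)
      refine h5.trans (mul_le_mul_of_nonneg_left ?_ hD)
      unfold upToED
      exact_mod_cast ED_map_le some x.1 y.1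
    have h3 := Finset.sum_le_sum h2
    rw [Finset.sum_const, Finset.card_range, nsmul_eq_mul] at h3
    show 2 * ∑ j ∈ range (Nat.log 2 n + 1), E j (φ x) (φ y) ≤ _
    linarith
  · show _ ≤ 2 * ∑ j ∈ range (Nat.log 2 n + 1), E j (φ x) (φ y)
    have hnn : ∀ j ∈ range (Nat.log 2 n + 1), 0 ≤ E j (φ x) (φ y) :=
      fun j _ => (hE j).cut.nonneg _ _
    unfold upToED
    rcases Nat.eq_zero_or_pos (ED x.1 y.1) with h0 | h0
    · rw [h0, Nat.cast_zero]
      exact mul_nonneg (by norm_num) (Finset.sum_nonneg hnn)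
    have h3 : ∀ z : {l : List α // l.length ≤ n},
        (pre (φ z) (2 * n)).filterMap id = z.1 := by
      intro z
      have h4 := pre_pad none (z.1.map some) (2 * n - z.1.length)
      have h5 := z.2
      rw [List.length_map, show z.1.length + (2 * n - z.1.length) = 2 * n by omega] at h4
      simp only [hφ]
      rw [h4, List.filterMap_append]
      have h6 : (List.replicate (2 * n - z.1.length) (none : Option α)).filterMap id = [] := by
        rw [List.filterMap_eq_nil_iff]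
        intro a ha
        exact List.eq_of_mem_replicate ha
      rw [h6, List.append_nil, List.filterMap_map]
      simp
    have h1 := ED_filterMap_le id (pre (φ x) (2 * n)) (pre (φ y) (2 * n))
    rw [h3, h3] at h1
    set j := Nat.log 2 (ED x.1 y.1) with hj
    have h4 : 2 ^ j ≤ ED x.1 y.1 := Nat.pow_log_le_self 2 (by omega)
    have h5 : ED x.1 y.1 < 2 ^ (j + 1) := Nat.lt_pow_succ_log_self (by norm_num) _
    have h6 := (hE j).lb j le_rfl (Nat.lt_succ_self j) (φ x) (φ y) (h4.trans h1)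
    have h7 : j ≤ Nat.log 2 n := by
      have h8 := ED_le_max x.1 y.1
      have h9 := x.2
      have h10 := y.2
      exact Nat.log_mono_right (by omega)
    have h8 := Finset.single_le_sum hnn (Finset.mem_range.2 (Nat.lt_succ_iff.2 h7))
    have h9 : (ED x.1 y.1 : ℝ) ≤ 2 * (2 : ℝ) ^ j := by
      rw [pow_succ] at h5
      exact_mod_cast (by omega : ED x.1 y.1 ≤ 2 * 2 ^ j)
    linarith

/-- The explicit embedding. -/
theorem cutX (α : Type) [Finite α] {n K c : ℕ} (hc : 1 ≤ c)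
    (hK : 64 * (2 ^ 41 * c * 2 ^ c) ^ (K + 9) ≤ 2 ^ 2 ^ c)
    (hn : 2 * n ≤ (2 ^ 41 * c * 2 ^ c) ^ (K.choose 2)) :
    ∃ d : {l : List α // l.length ≤ n} → {l : List α // l.length ≤ n} → ℝ, IsCut d ∧
      (∀ x y, d x y ≤ 2 * ((Nat.log 2 n + 1 : ℕ) : ℝ) * (((2 ^ 41 * c * 2 ^ c) ^ (K + 8) : ℕ) : ℝ) *
        upToED α n x y) ∧ ∀ x y, upToED α n x y ≤ d x y :=
  glue (Nat.cast_nonneg _) fun j => (iterX none hc hK K le_rfl (2 * n) hn j).imp fun _ h =>
    h.mono Nat.one_le_two_pow le_rfl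

end words

theorem pickK {Y ρ : ℝ} (hY : 0 ≤ Y) (hρ : 0 < ρ) : ∃ K : ℕ, Y ≤ (K.choose 2 : ℕ) * ρ ∧
    K * ρ ≤ Real.sqrt (2 * Y * ρ) + 2 * ρ := by
  set t := Real.sqrt (2 * Y / ρ) with ht
  have ht0 : 0 ≤ t := Real.sqrt_nonneg _
  have ht2 : t ^ 2 = 2 * Y / ρ := Real.sq_sqrt (by positivity)
  have hj1 : t ≤ ⌈t⌉₊ := Nat.le_ceil _
  have hj2 : (⌈t⌉₊ : ℝ) < t + 1 := Nat.ceil_lt_add_one ht0
  set j := ⌈t⌉₊
  refine ⟨j + 1, ?_, ?_⟩
  · have h1 : (((j + 1).choose 2 : ℕ) : ℝ) = (j + 1) * j / 2 := by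
      rw [Nat.cast_choose_two]; push_cast; ring
    rw [h1]
    have h3 : t ^ 2 * ρ = 2 * Y := by rw [ht2]; field_simp
    have h4 : t ^ 2 ≤ (j + 1) * j := by nlinarith
    have h5 := mul_le_mul_of_nonneg_right h4 hρ.le
    linarith
  · have h1 : Real.sqrt (2 * Y * ρ) = t * ρ := by
      rw [show 2 * Y * ρ = 2 * Y / ρ * ρ ^ 2 by field_simp, Real.sqrt_mul (by positivity),
        Real.sqrt_sq hρ.le]
    rw [h1]
    push_cast
    nlinarith

theorem facts {η : ℝ} (hη : 0 < η) (c : ℝ) : ∀ᶠ y : ℝ in atTop, 1 ≤ y ∧ 3 ≤ Real.log y ∧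
    y + 1 ≤ (1 + η) * y ∧ 4 * Real.log y ≤ η * Real.sqrt (y * Real.log y) ∧
    c + Real.log (Real.log y) ≤ η * Real.log y ∧ 3 ≤ Real.sqrt (y * Real.log y) ∧
    Real.log (Real.sqrt (y * Real.log y)) = (Real.log y + Real.log (Real.log y)) / 2 := by
  filter_upwards [eventually_ge_atTop (1 / η), Real.tendsto_log_atTop.eventually_ge_atTop 3,
    Real.tendsto_log_atTop.eventually_ge_atTop (2 * c / η),
    log_le_eventually (c := η ^ 2 / 16) (by positivity),
    Real.tendsto_log_atTop.eventually (log_le_eventually (c := η / 2) (by positivity)),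
    eventually_ge_atTop (3 : ℝ)] with y h1 h2 h3 h4 h5 hy
  set u := Real.log y with hu
  have hu0 : 0 < u := by linarith
  have hs2 : Real.sqrt (y * u) ^ 2 = y * u := Real.sq_sqrt (by positivity)
  refine ⟨by linarith, h2, ?_, ?_, ?_, ?_, ?_⟩
  · rw [div_le_iff₀ hη] at h1
    linarith
  · refine le_of_sq_le_sq ?_ (by positivity)
    rw [mul_pow, mul_pow η, hs2]
    have := mul_le_mul_of_nonneg_right h4 hu0.le
    nlinarith
  · rw [div_le_iff₀ hη] at h3
    linarith
  · refine Real.le_sqrt_of_sq_le ?_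
    nlinarith
  · rw [Real.log_sqrt (by positivity), Real.log_mul (by linarith) hu0.ne']

theorem sqrt_bound {y u η a ρ : ℝ} (hy : 0 ≤ y) (hu : 0 ≤ u) (hη : 0 ≤ η) (ha : 0 ≤ a)
    (hρ0 : 0 ≤ ρ) (h1 : y + 1 ≤ (1 + η) * y) (hρ : 2 * ρ ≤ a ^ 2 * (1 + η) * u) :
    Real.sqrt (2 * (y + 1) * ρ) ≤ a * (1 + η) * Real.sqrt (y * u) := by
  refine Real.sqrt_le_iff.2 ⟨by positivity, ?_⟩
  rw [mul_pow, Real.sq_sqrt (by positivity)]
  have := mul_le_mul h1 hρ (by positivity) (by positivity)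
  nlinarith

theorem pre_le {n : ℕ} (hn : 1 ≤ n) {t : ℝ} (h3 : 3 ≤ Real.log (Real.log n))
    (hy : 1 ≤ Real.log n) (ht : 2 * Real.log (Real.log n) ≤ t) :
    2 * ((Nat.log 2 n + 1 : ℕ) : ℝ) ≤ Real.exp t ∧ ∀ (R K : ℕ), 1 ≤ R →
      Real.log n + 1 ≤ (K.choose 2 : ℕ) * Real.log R → 2 * n ≤ R ^ (K.choose 2) := by
  have hl2a := Real.log_two_gt_d9
  have hl2b := Real.log_two_lt_d9
  have hn0 : (0 : ℝ) < n := by exact_mod_cast hn
  set y := Real.log n with hydef
  constructor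
  · have h1 : ((2 ^ Nat.log 2 n : ℕ) : ℝ) ≤ (n : ℝ) := by
      exact_mod_cast Nat.pow_log_le_self 2 (by omega)
    have h2 := Real.log_le_log (by positivity) h1
    rw [Nat.cast_pow, Real.log_pow] at h2
    have h5 : (0 : ℝ) ≤ Nat.log 2 n := Nat.cast_nonneg _
    have h6 : 2 * ((Nat.log 2 n + 1 : ℕ) : ℝ) ≤ 6 * y := by
      push_cast at h2 ⊢
      nlinarith
    refine h6.trans ?_
    have h7 : Real.exp (2 * Real.log y) ≤ Real.exp t := Real.exp_le_exp.2 ht
    refine le_trans ?_ h7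
    rw [two_mul, Real.exp_add, Real.exp_log (by linarith)]
    have h8 : Real.exp 3 ≤ y := (Real.le_log_iff_exp_le (by linarith)).1 h3
    have h9 := Real.quadratic_le_exp_of_nonneg (x := 3) (by norm_num)
    nlinarith
  · intro R K hR hK
    have hR0 : (0 : ℝ) < R := by exact_mod_cast hR
    have h4 : ((2 * n : ℕ) : ℝ) ≤ (R : ℝ) ^ (K.choose 2) := by
      rw [← Real.log_le_log_iff (by positivity) (by positivity), Real.log_pow]
      refine le_trans ?_ hK
      push_cast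
      rw [Real.log_mul (by norm_num) hn0.ne']
      linarith
    exact_mod_cast h4

/-- The upper bound with constant `1 + ε`. -/
theorem upperX {ε : ℝ} (hε : 0 < ε) : ∀ᶠ n : ℕ in atTop, ∀ (α : Type) [Finite α],
    ∃ d : {l : List α // l.length ≤ n} → {l : List α // l.length ≤ n} → ℝ, IsCut d ∧
      (∀ x y, d x y ≤ Real.exp ((1 + ε) *
        Real.sqrt (Real.log n * Real.log (Real.log n))) * upToED α n x y) ∧
      ∀ x y, upToED α n x y ≤ d x y := by
  set η := min (ε / 7) (1 / 20) with hηdef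
  have hη : 0 < η := lt_min (by positivity) (by norm_num)
  have hη1 : η ≤ 1 / 20 := min_le_right _ _
  have hη2 : η ≤ ε / 7 := min_le_left _ _
  filter_upwards [log_nat_atTop.eventually (facts hη (Real.log (2 ^ 46))), eventually_ge_atTop 1]
    with n h hn α _
  obtain ⟨h1, h2, h3, h4, h5, h6, h7⟩ := h
  set y := Real.log n with hy
  set u := Real.log y with hu
  set s := Real.sqrt (y * u) with hs
  have hl2a := Real.log_two_gt_d9
  have hl2b := Real.log_two_lt_d9
  have hF : 1 ≤ ⌊4 * s⌋₊ := Nat.le_floor (by push_cast; linarith)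
  set c := Nat.log 2 ⌊4 * s⌋₊ + 1 with hc
  have hc1 : 4 * s ≤ 2 ^ c := by
    have e1 : ⌊4 * s⌋₊ + 1 ≤ 2 ^ c := Nat.lt_pow_succ_log_self (by norm_num) _
    have e2 : ((⌊4 * s⌋₊ + 1 : ℕ) : ℝ) ≤ 2 ^ c := by exact_mod_cast e1
    push_cast at e2
    linarith [Nat.lt_floor_add_one (4 * s)]
  have hc2 : (2 : ℝ) ^ c ≤ 8 * s := by
    have e1 : 2 ^ Nat.log 2 ⌊4 * s⌋₊ ≤ ⌊4 * s⌋₊ := Nat.pow_log_le_self 2 (by omega)
    have e2 : (2 : ℝ) ^ Nat.log 2 ⌊4 * s⌋₊ ≤ ⌊4 * s⌋₊ := by exact_mod_cast e1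
    rw [hc, pow_succ]
    linarith [Nat.floor_le (show 0 ≤ 4 * s by linarith)]
  have hc0 : 1 ≤ c := Nat.le_add_left _ _
  have hc0' : (1 : ℝ) ≤ c := by exact_mod_cast hc0
  have hlu : Real.log u ≤ u - 1 := Real.log_le_sub_one_of_pos (by linarith)
  have hlu0 : 0 ≤ Real.log u := Real.log_nonneg (by linarith)
  have hc3 : (c : ℝ) ≤ 4 * u := by
    have e1 := Real.log_le_log (by positivity) hc2
    rw [Real.log_pow, Real.log_mul (by norm_num) (by positivity), h7,
      show (8 : ℝ) = 2 ^ 3 by norm_num, Real.log_pow] at e1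
    push_cast at e1
    nlinarith
  set R : ℕ := 2 ^ 41 * c * 2 ^ c with hR
  have hRr : (R : ℝ) = 2 ^ 41 * (c * 2 ^ c) := by rw [hR]; push_cast; ring
  have hR1' : (2 : ℝ) ≤ R := by
    rw [hRr]
    have := one_le_mul_of_one_le_of_one_le hc0' (one_le_pow₀ (n := c) one_le_two)
    linarith
  have hR1 : 2 ≤ R := by exact_mod_cast hR1'
  set ρ := Real.log R with hρ
  have hρ0 : 0 < ρ := Real.log_pos (by linarith)
  have hρ2 : 2 * ρ ≤ 1 ^ 2 * (1 + 3 * η) * u := by
    have e1 : (R : ℝ) ≤ 2 ^ 46 * (u * s) := by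
      rw [hRr]
      have := mul_le_mul hc3 hc2 (by positivity) (by linarith)
      linarith
    have e2 := Real.log_le_log (by linarith) e1
    rw [Real.log_mul (by norm_num) (by positivity), Real.log_mul (by positivity) (by positivity),
      h7, ← hρ] at e2
    have e3 : 0 ≤ Real.log (2 ^ 46) := Real.log_nonneg (by norm_num)
    generalize Real.log (2 ^ 46) = L at h5 e2 e3
    linarith
  obtain ⟨K, hK1, hK2⟩ := pickK (Y := y + 1) (by linarith) hρ0
  have hηy : 0 ≤ η * y := by positivity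
  have hK3 := sqrt_bound (a := 1) (u := u) (η := 3 * η) (y := y) (by linarith) (by linarith)
    (by linarith) zero_le_one hρ0.le (by linarith) hρ2
  have hηs : 0 ≤ η * s := by positivity
  have hK4 : (K + 9) * ρ ≤ (1 + 6 * η) * s := by
    have e2 : η * u ≤ 1 / 20 * u := mul_le_mul_of_nonneg_right hη1 (by linarith)
    linarith
  have hRK : ∀ k : ℕ, ((R ^ k : ℕ) : ℝ) = Real.exp (k * ρ) := fun k => by
    rw [Real.exp_nat_mul, Real.exp_log (by linarith), Nat.cast_pow]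
  obtain ⟨p1, p2⟩ := pre_le hn (t := η * s) h2 h1 (by linarith)
  have hcond : 64 * R ^ (K + 9) ≤ 2 ^ 2 ^ c := by
    have e1 : ((64 * R ^ (K + 9) : ℕ) : ℝ) ≤ (2 : ℝ) ^ 2 ^ c := by
      rw [Nat.cast_mul, hRK, ← Real.log_le_log_iff (by positivity) (by positivity),
        Real.log_mul (by norm_num) (by positivity), Real.log_exp, Real.log_pow,
        show ((64 : ℕ) : ℝ) = 2 ^ 6 by norm_num, Real.log_pow]
      have e2 : η * s ≤ 1 / 20 * s := mul_le_mul_of_nonneg_right hη1 (by linarith)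
      have e3 : 4 * s * Real.log 2 ≤ 2 ^ c * Real.log 2 :=
        mul_le_mul_of_nonneg_right hc1 (by linarith)
      have e4 : s * 0.69 ≤ s * Real.log 2 := mul_le_mul_of_nonneg_left (by linarith) (by linarith)
      push_cast
      linarith
    exact_mod_cast e1
  obtain ⟨d, hd1, hd2, hd3⟩ := cutX α hc0 hcond (p2 R K (by omega) hK1)
  refine ⟨d, hd1, fun x y => (hd2 x y).trans ?_, hd3⟩
  refine mul_le_mul_of_nonneg_right ?_ (Nat.cast_nonneg _)
  rw [hRK]
  refine (mul_le_mul_of_nonneg_right p1 (Real.exp_pos _).le).trans ?_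
  rw [← Real.exp_add]
  refine Real.exp_le_exp.2 ?_
  have e2 : η * s ≤ ε / 7 * s := mul_le_mul_of_nonneg_right hη2 (by linarith)
  push_cast
  linarith

theorem lower1 {ε : ℝ} (hε : 0 < ε) : ∀ᶠ n : ℕ in atTop,
    Real.exp ((1 - ε) * Real.sqrt (Real.log n * Real.log (Real.log n))) ≤ c1 (binED n) := by
  filter_upwards [lowerFar hε] with n h
  apply le_c1 (binED n) binED_self' binED_pos'
  intro F L M _ hM hFL hFM
  refine h (fun x y => ‖M • F x - M • F y‖) (L * M) (poin_l1 fun x => M • F x) (fun x y => ?_)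
    fun x y _ => ?_
  · show ‖M • F x - M • F y‖ ≤ _
    rw [← smul_sub, norm_smul, Real.norm_eq_abs, abs_of_nonneg hM]
    have := mul_le_mul_of_nonneg_left (hFL x y) hM
    linarith
  · show _ ≤ ‖M • F x - M • F y‖
    rw [← smul_sub, norm_smul, Real.norm_eq_abs, abs_of_nonneg hM]
    exact hFM x y

theorem window {ε : ℝ} (hε : 0 < ε) : ∃ n₀ : ℕ, ∀ (α : Type) [Finite α] [Nontrivial α] (n : ℕ),
    n₀ ≤ n →
      Real.exp ((1 - ε) * Real.sqrt (Real.log n * Real.log (Real.log n))) ≤ c1 (binED n) ∧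
      c1 (binED n) ≤ c1 (wordED α n) ∧ c1 (wordED α n) ≤ c1 (upToED α n) ∧
      c1 (upToED α n) ≤
        Real.exp ((1 + ε) * Real.sqrt (Real.log n * Real.log (Real.log n))) := by
  obtain ⟨n₀, h⟩ := eventually_atTop.1 ((lower1 hε).and (upperX hε))
  refine ⟨n₀, fun α _ _ n hn => ⟨(h n hn).1, ?_, word_le_upto α n, ?_⟩⟩
  · obtain ⟨e, he, hiso⟩ := bin_embed α n
    exact c1_restrict e he hiso fun x y => Nat.cast_nonneg _
  · obtain ⟨d, hd, h1, h2⟩ := (h n hn).2 α
    exact c1_le hd (Real.exp_pos _).le (fun x y hxy => zero_lt_one.trans_le (upToED_pos hxy)) h2 h1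

theorem limit : Tendsto (fun n : ℕ => Real.log (c1 (binED n)) /
    Real.sqrt (Real.log n * Real.log (Real.log n))) atTop (nhds 1) := by
  refine Metric.tendsto_atTop.2 fun ε hε => ?_
  obtain ⟨n₀, h⟩ := window (half_pos hε)
  obtain ⟨n₁, h'⟩ := eventually_atTop.1 (log_nat_atTop.eventually (facts one_pos 0))
  refine ⟨max n₀ n₁, fun n hn => ?_⟩
  obtain ⟨h1, h2, h3, h4⟩ := h Bool n (le_of_max_le_left hn)
  have h5 := (h' n (le_of_max_le_right hn)).2.2.2.2.2.1
  generalize Real.sqrt (Real.log n * Real.log (Real.log n)) = s at *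
  have h6 := Real.log_le_log (Real.exp_pos _) h1
  have h7 := Real.log_le_log ((Real.exp_pos _).trans_le h1) (h2.trans (h3.trans h4))
  rw [Real.log_exp] at h6 h7
  have h8 := (le_div_iff₀ (by linarith)).2 h6
  have h9 := (div_le_iff₀ (by linarith)).2 h7
  rw [Real.dist_eq, abs_lt]
  constructor <;> linarith

theorem coarse {ε : ℝ} (hε : 0 < ε) : ∃ n₀ : ℕ, ∀ n : ℕ, n₀ ≤ n →
    ∀ (H : Type) [NormedAddCommGroup H] [InnerProductSpace ℝ H] (F : (Fin n → Bool) → H) (D : ℝ),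
      (∀ x y, ‖F x - F y‖ ^ 2 ≤ D * binED n x y ∧
        (n * Real.exp (-(ε * Real.sqrt (Real.log n * Real.log (Real.log n)))) ≤ binED n x y →
          binED n x y ≤ ‖F x - F y‖ ^ 2)) →
      Real.exp ((1 - ε) * Real.sqrt (Real.log n * Real.log (Real.log n))) ≤ D := by
  obtain ⟨n₀, h⟩ := eventually_atTop.1 (lowerFar hε)
  exact ⟨n₀, fun n hn H _ _ F D hF => h n hn _ D (poin_hilbert F) (fun x y => (hF x y).1)
    fun x y => (hF x y).2⟩

end Vale.Agent.N238X
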