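import Vale.Agent.N238X.Curve

/-!
# N238X / Words : one step of the recursion on words
-/

set_option autoImplicit false

namespace Vale.Agent.N238X

open Finset Vale.Agent.P238 Vale.Agent.P238.Full Vale.Agent.P238.H360

variable {A : Type}

/-- the embedding of words of length `l` at the thresholds `2 ^ a`, `a0 ≤ a < a0 + G` -/
structure Good4 (l a0 G : ℕ) (D : ℝ) (d : (ℕ → A) → (ℕ → A) → ℝ) : Prop where
  cut : IsCut d
  zero : ∀ x y, (∀ t < l, x t = y t) → d x y = 0
  lb : ∀ a, a0 ≤ a → a < a0 + G → ∀ x y, 2 ^ a ≤ ED (pre x l) (pre y l) → (2 : ℝ) ^ a ≤ d x y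
  ub : ∀ p q x y, p ≤ q → q < l → Sh l p q x y → d x y ≤ D

theorem Good4.mono {l a0 G G' : ℕ} {D D' : ℝ} {d : (ℕ → A) → (ℕ → A) → ℝ}
    (h : Good4 l a0 G D d) (hG : G' ≤ G) (hD : D ≤ D') : Good4 l a0 G' D' d :=
  ⟨h.cut, h.zero, fun a h1 h2 => h.lb a h1 (by omega),
    fun p q x y h1 h2 h3 => (h.ub p q x y h1 h2 h3).trans hD⟩

theorem Good4.add {l a0 G : ℕ} {D : ℝ} {d e : (ℕ → A) → (ℕ → A) → ℝ} (h : Good4 l a0 G D d)
    (h' : Good4 l (a0 + G) G D e) : Good4 l a0 (2 * G) (2 * D) fun x y => d x y + e x y := by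
  refine ⟨h.cut.add h'.cut, fun x y hxy => ?_, fun a h1 h2 x y h3 => ?_, fun p q x y h1 h2 h3 => ?_⟩
  · show d x y + e x y = 0
    rw [h.zero x y hxy, h'.zero x y hxy, add_zero]
  · show _ ≤ d x y + e x y
    have e1 := h.cut.nonneg x y
    have e2 := h'.cut.nonneg x y
    rcases Nat.lt_or_ge a (a0 + G) with h4 | h4
    · linarith [h.lb a h1 h4 x y h3]
    · linarith [h'.lb a h4 (by omega) x y h3]
  · show d x y + e x y ≤ _
    linarith [h.ub p q x y h1 h2 h3, h'.ub p q x y h1 h2 h3]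

theorem ED_prefix_ge (x y r : List A) : ED x y ≤ ED (r ++ x) (r ++ y) := by
  obtain ⟨z1, z2, hz, h⟩ := ED_split r x (r ++ y)
  have h2 := length_le_left r z1
  have h3 := length_le_right r z1
  rcases List.append_eq_append_iff.1 hz with ⟨c, hc1, hc2⟩ | ⟨c, hc1, hc2⟩
  · subst hc2
    have h4 := ED_triangle x z2 (c ++ z2)
    have h5 := ED_append_left_le c z2
    have h6 := congrArg List.length hc1
    simp only [List.length_append] at h6
    omega
  · subst hc2
    have h4 := ED_triangle x (c ++ y) y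
    have h5 := ED_append_left_le c y
    rw [ED_comm] at h5
    have h6 := congrArg List.length hc1
    simp only [List.length_append] at h6
    omega

theorem win_shift (x : ℕ → A) (l i : ℕ) : ED (pre x l) (pre (sh i x) l) ≤ 2 * i := by
  have h1 := ED_append_right_le (pre x l) (pre (sh l x) i)
  have h2 := ED_append_left_le (pre x i) (pre (sh i x) l)
  rw [← pre_add, pre_length] at h1 h2
  rw [Nat.add_comm i l, ED_comm] at h2
  have h3 := ED_triangle (pre x l) (pre x (l + i)) (pre (sh i x) l)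
  omega

theorem sh_add (a b : ℕ) (x : ℕ → A) : sh (a + b) x = sh b (sh a x) :=
  funext fun t => congrArg x (Nat.add_assoc a b t)

theorem ED_blocks (x y : ℕ → A) (M k : ℕ) : ED (pre x (k * M)) (pre y (k * M)) ≤
    ∑ i ∈ range k, ED (pre (sh (i * M) x) M) (pre (sh (i * M) y) M) := by
  induction k with
  | zero => simp [pre, ED_self]
  | succ k ih =>
    rw [Finset.sum_range_succ, Nat.succ_mul, pre_add, pre_add]
    exact (ED_append_le _ _ _ _).trans (Nat.add_le_add_right ih _)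

theorem min_sum_le (e : ℕ → ℕ) (T k : ℕ) :
    min (∑ i ∈ range k, e i) T ≤ ∑ i ∈ range k, min (e i) T := by
  induction k with
  | zero => simp
  | succ k ih =>
    rw [Finset.sum_range_succ, Finset.sum_range_succ]
    omega

theorem disc [Finite A] (m : ℕ) : ∃ e : (ℕ → A) → (ℕ → A) → ℝ, IsCut e ∧
    (∀ x y, (∀ t < m, x t = y t) → e x y = 0) ∧ (∀ x y, e x y ≤ 1) ∧
    ∀ x y, 1 ≤ ED (pre x m) (pre y m) → 1 ≤ e x y := by
  classical
  have := Fintype.ofFinite (Fin m → A)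
  obtain ⟨d, hd⟩ := H360.base (A := Fin m → A) 1 le_rfl
  refine ⟨fun x y => d (fun _ t => x t) (fun _ t => y t), hd.cut.comap _,
    fun x y h => hd.zero _ _ fun _ _ => funext fun t => h t t.2,
    fun x y => hd.ub 0 0 _ _ le_rfl one_pos
      ⟨fun t h => by omega, fun t _ h => by omega, fun t _ h => by omega⟩,
    fun x y h => le_trans ?_ (hd.lb _ _)⟩
  rw [Nat.one_le_cast, Nat.one_le_iff_ne_zero]
  intro h0
  have h1 := ED_eq_zero h0
  simp only [pre, List.range_one, List.map_cons, List.map_nil, List.cons.injEq, and_true] at h1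
  rw [pre_congr (y := y) fun t ht => congrFun h1 ⟨t, ht⟩, ED_self] at h
  omega

/-- The embedding of the windows of one block. -/
theorem block {M c a0 g : ℕ} (hc : 1 ≤ c) (hg : g ≤ 2 * 2 ^ c) (hT : 2 ^ (c + a0 + g) ≤ M)
    {D : ℝ} (hD : 0 ≤ D) (hDκ : Real.exp 1 * (D + 1) ≤ Real.exp (2 ^ c))
    {d : (ℕ → A) → (ℕ → A) → ℝ} (hd : Good4 M (c + a0) g D d) :
    ∃ E : (ℕ → A) → (ℕ → A) → ℝ, L1 E ∧ (∀ x y, (∀ t < 5 * M, x t = y t) → E x y ≤ 0) ∧
      (∀ x y, (∀ t < 5 * M, y t = x (t + 1)) → E x y ≤ 688 * (2 ^ c) ^ 8) ∧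
      (∀ x y, (∀ u, d (sh u x) (sh u y) ≤ D) → E x y ≤ 2 ^ 28 * c * 2 ^ c * D) ∧
      ∀ x y, ∑ o ∈ range (2 ^ (c + a0 + g)),
        (((min (ED (pre (sh (2 ^ (c + a0 + g) + o) x) M) (pre (sh (2 ^ (c + a0 + g) + o) y) M))
          (13 * 2 ^ (c + a0 + g)) : ℕ) : ℝ) - 13 * 2 ^ (c + a0)) / 52 ≤
        2 ^ (c + a0 + g) * E x y := by
  classical
  obtain ⟨E, e1, e2, e3, e4⟩ := curve (a0 := a0) hd.cut hc hg hD hDκ
  have hM : 1 ≤ M := le_trans Nat.one_le_two_pow hT
  have hsp : ∀ (x : ℕ → A) u, d (sh u x) (sh (u + 1) x) ≤ D := fun x u =>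
    hd.ub 0 (M - 1) _ _ (Nat.zero_le _) (by omega)
      ⟨fun t ht => by omega, fun t _ _ => congrArg x (by omega), fun t ht1 ht2 => by omega⟩
  refine ⟨fun x y => E (fun u => sh u x) (fun u => sh u y), fun Y f hf => ?_, fun x y h => ?_,
    fun x y h => ?_, fun x y h => e2 _ _ D hD (hsp x) (hsp y) fun v _ => h v, fun x y => ?_⟩
  · refine e1 Y (fun y u => sh u (f y)) ((hf.image fun x u => sh u x).subset ?_)
    rintro _ ⟨y, rfl⟩
    exact ⟨f y, ⟨y, rfl⟩, rfl⟩
  · refine (e2 _ _ 0 le_rfl (hsp x) (hsp y) fun v hv => le_of_eq (hd.zero _ _ fun t ht =>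
      h _ (by omega))).trans (le_of_eq (mul_zero _))
  · have h1 := e1.triangle (fun u => sh u x) (fun u => sh (u + 1) x) (fun u => sh u y)
    have h2 := e3 (fun u => sh u x) (hsp x)
    have h3 := e2 (fun u => sh (u + 1) x) (fun u => sh u y) 0 le_rfl (fun u => hsp x (u + 1))
      (hsp y) fun v hv => le_of_eq (hd.zero _ _ fun t ht =>
        ((h (v + t) (by omega)).trans (congrArg x (by omega))).symm)
    show E _ _ ≤ _
    linarith
  · refine e4 _ _ _ (hsp y) fun o _ => ?_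
    set X := sh (2 ^ (c + a0 + g) + o) x with hX
    set Y := sh (2 ^ (c + a0 + g) + o) y with hY
    set e := ED (pre X M) (pre Y M) with he
    by_cases h0 : 13 * 2 ^ (c + a0) ≤ e ∧ 1 ≤ g
    · right
      set j := Nat.findGreatest (fun j => 13 * 2 ^ (c + a0 + j) ≤ e) (g - 1) with hj
      have hj1 : j ≤ g - 1 := Nat.findGreatest_le _
      have hj2 : 13 * 2 ^ (c + a0 + j) ≤ e :=
        Nat.findGreatest_spec (P := fun j => 13 * 2 ^ (c + a0 + j) ≤ e) (Nat.zero_le _) h0.1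
      refine ⟨j, by omega, ?_, fun u hu v hv => ?_⟩
      · have h3 : min e (13 * 2 ^ (c + a0 + g)) ≤ 26 * 2 ^ (c + a0 + j) := by
          by_cases h4 : j + 1 ≤ g - 1
          · have h5 : ¬ 13 * 2 ^ (c + a0 + (j + 1)) ≤ e :=
              Nat.findGreatest_is_greatest (P := fun j => 13 * 2 ^ (c + a0 + j) ≤ e)
                (Nat.lt_succ_self j) h4
            rw [← Nat.add_assoc, pow_succ] at h5
            omega
          · have h5 : c + a0 + g = c + a0 + j + 1 := by omega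
            rw [h5, pow_succ]
            omega
        have h4 : ((min e (13 * 2 ^ (c + a0 + g)) : ℕ) : ℝ) ≤ 26 * 2 ^ (c + a0 + j) := by
          exact_mod_cast h3
        have h5 : (0 : ℝ) ≤ 2 ^ (c + a0) := by positivity
        linarith
      · show _ ≤ d (sh _ x) (sh _ y)
        rw [sh_add _ u, sh_add _ v, ← hX, ← hY]
        refine hd.lb _ (by omega) (by omega) _ _ ?_
        have h1 := win_shift X M u
        have h2 := win_shift Y M v
        have h3 := ED_triangle (pre X M) (pre (sh u X) M) (pre Y M)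
        have h4 := ED_triangle (pre (sh u X) M) (pre (sh v Y) M) (pre Y M)
        have h5 := ED_comm (pre Y M) (pre (sh v Y) M)
        have h6 : 2 ^ (a0 + j) ≤ 2 ^ (c + a0 + j) := Nat.pow_le_pow_right (by norm_num) (by omega)
        omega
    · left
      have h3 : min e (13 * 2 ^ (c + a0 + g)) ≤ 13 * 2 ^ (c + a0) := by
        rcases Nat.eq_zero_or_pos g with h | h
        · rw [h]
          exact min_le_right _ _
        · omega
      have h4 : ((min e (13 * 2 ^ (c + a0 + g)) : ℕ) : ℝ) ≤ 13 * 2 ^ (c + a0) := by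
        exact_mod_cast h3
      linarith

/-- the word placed at position `P` of a constant sequence -/
def plc (z : A) (P m : ℕ) (x : ℕ → A) : ℕ → A :=
  fun t => if P ≤ t ∧ t < P + m then x (t - P) else z

theorem plc_out (z : A) {P m t : ℕ} (x y : ℕ → A) (h : t < P ∨ P + m ≤ t) :
    plc z P m x t = plc z P m y t := by
  unfold plc
  rw [if_neg (by omega), if_neg (by omega)]

theorem plc_in (z : A) (P : ℕ) {m t : ℕ} (x : ℕ → A) (h : t < m) : plc z P m x (P + t) = x t := by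
  unfold plc
  rw [if_pos (by omega), Nat.add_sub_cancel_left]

theorem plc_congr (z : A) (P : ℕ) {m t : ℕ} {x y : ℕ → A} (h : P ≤ t → t < P + m → x (t - P) = y (t - P)) :
    plc z P m x t = plc z P m y t := by
  unfold plc
  split_ifs with h1
  · exact h h1.1 h1.2
  · rfl

theorem plc_cover (z : A) {P m u L : ℕ} (h1 : u ≤ P) (h2 : P + m ≤ u + L) (x y : ℕ → A) :
    ED (pre x m) (pre y m) ≤ ED (pre (sh u (plc z P m x)) L) (pre (sh u (plc z P m y)) L) := by
  obtain ⟨k, rfl⟩ := Nat.exists_eq_add_of_le h1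
  obtain ⟨r, rfl⟩ : ∃ r, L = k + (m + r) := ⟨L - k - m, by omega⟩
  rw [pre_add, pre_add, pre_add, pre_add, ← sh_add, ← sh_add, ← sh_add, ← sh_add]
  have e1 : ∀ x, pre (sh (u + k) (plc z (u + k) m x)) m = pre x m := fun x =>
    pre_congr fun t ht => plc_in z _ x ht
  have e2 : pre (sh u (plc z (u + k) m y)) k = pre (sh u (plc z (u + k) m x)) k :=
    pre_congr fun t ht => plc_out z _ _ (by omega)
  have e3 : pre (sh (u + k + m) (plc z (u + k) m y)) r = pre (sh (u + k + m) (plc z (u + k) m x)) r :=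
    pre_congr fun t ht => plc_out z _ _ (by omega)
  rw [e1, e1, e2, e3]
  exact (ED_suffix_ge _ _ _).trans (ED_prefix_ge _ _ _)

theorem count5 (n k : ℕ) {B : ℝ} (hB : 0 ≤ B) :
    ∑ i ∈ range n, (if i ≤ k ∧ k < i + 5 then B else 0) ≤ 5 * B := by
  rw [← Finset.sum_filter, Finset.sum_const, nsmul_eq_mul]
  refine mul_le_mul_of_nonneg_right ?_ hB
  have h1 : ((range n).filter fun i => i ≤ k ∧ k < i + 5) ⊆ Icc (k - 4) k := fun i hi => by
    have := (Finset.mem_filter.1 hi).2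
    exact Finset.mem_Icc.2 (by omega)
  have h2 := Finset.card_le_card h1
  rw [Nat.card_Icc] at h2
  exact_mod_cast h2.trans (by omega)

theorem core [Finite A] (z : A) {M b m c a0 g : ℕ} (hm : m ≤ b * M) (hc : 1 ≤ c)
    (hg : g ≤ 2 * 2 ^ c) (hT : 2 ^ (c + a0 + g) ≤ M) {D : ℝ} (hD : 0 ≤ D)
    (hDκ : Real.exp 1 * (D + 1) ≤ Real.exp (2 ^ c)) {d : (ℕ → A) → (ℕ → A) → ℝ}
    (hd : Good4 M (c + a0) g D d) :
    ∃ e : (ℕ → A) → (ℕ → A) → ℝ, IsCut e ∧ (∀ x y, (∀ t < m, x t = y t) → e x y = 0) ∧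
      (∀ S : ℕ, 26 * (b + 1) * 2 ^ (c + a0) ≤ S →
        S ≤ 13 * 2 ^ (c + a0 + g) ∨ M ≤ 13 * 2 ^ (c + a0 + g) →
        ∀ x y, S ≤ ED (pre x m) (pre y m) → (S : ℝ) ≤ e x y) ∧
      ∀ p q x y, p ≤ q → q < m → Sh m p q x y →
        e x y ≤ 104 * ((b + 1 : ℕ) * (688 * (2 ^ c) ^ 8) + 10 * (2 ^ 28 * c * 2 ^ c * D)) := by
  classical
  obtain ⟨E, e1, e2, e3, e4, e5⟩ := block hc hg hT hD hDκ hd
  have hT1 : 1 ≤ 2 ^ (c + a0 + g) := Nat.one_le_two_pow
  have hTr : (2 : ℝ) ^ (c + a0 + g) = (2 ^ (c + a0 + g) : ℕ) := by push_cast; rfl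
  rw [hTr] at e5
  generalize 2 ^ (c + a0 + g) = T at *
  set φ : ℕ → (ℕ → A) → ℕ → A := fun i x => sh (i * M) (plc z (2 * T) m x) with hφ
  have hcut : IsCut fun x y => 104 * ∑ i ∈ range (b + 1), E (φ i x) (φ i y) := by
    refine (IsCut.sum _ (fun i x y => E (φ i x) (φ i y)) fun i _ => e1 _ (φ i) ?_).smul
      (by norm_num)
    refine (Set.finite_range fun w : Fin m → A =>
      φ i fun t => if h : t < m then w ⟨t, h⟩ else z).subset ?_
    rintro _ ⟨x, rfl⟩
    refine ⟨fun t => x t, funext fun t => plc_congr z _ fun h1 h2 => ?_⟩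
    exact dif_pos (by omega)
  refine ⟨_, hcut, fun x y h => le_antisymm ?_ (hcut.nonneg x y), fun S h1 h2 x y h3 => ?_,
    fun p q x y hpq hq hxy => ?_⟩
  · refine mul_nonpos_of_nonneg_of_nonpos (by norm_num) (Finset.sum_nonpos fun i _ =>
      e2 _ _ fun t _ => plc_congr z _ fun h1 h2 => h _ (by omega))
  · show _ ≤ 104 * ∑ i ∈ range (b + 1), E (φ i x) (φ i y)
    have h4 := Finset.sum_le_sum fun i (_ : i ∈ range (b + 1)) => e5 (φ i x) (φ i y)
    rw [← Finset.mul_sum, Finset.sum_comm] at h4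
    have h5 : ∀ o ∈ range T, (S : ℝ) / 104 ≤ ∑ i ∈ range (b + 1),
        (((min (ED (pre (sh (T + o) (φ i x)) M) (pre (sh (T + o) (φ i y)) M)) (13 * T) : ℕ) : ℝ) -
          13 * 2 ^ (c + a0)) / 52 := by
      intro o ho
      have ho' := Finset.mem_range.1 ho
      set e : ℕ → ℕ := fun i => ED (pre (sh (T + o) (φ i x)) M) (pre (sh (T + o) (φ i y)) M)
        with he
      have f1 : S ≤ ∑ i ∈ range (b + 1), e i := by
        refine h3.trans ((plc_cover z (P := 2 * T) (u := T + o) (L := (b + 1) * M) (by omega)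
          (by rw [Nat.succ_mul b]; omega) x y).trans ((ED_blocks _ _ M _).trans (le_of_eq ?_)))
        refine Finset.sum_congr rfl fun i _ => ?_
        simp only [he, hφ]
        rw [← sh_add, ← sh_add, ← sh_add, ← sh_add, Nat.add_comm (i * M)]
      have f2 : S ≤ ∑ i ∈ range (b + 1), min (e i) (13 * T) := by
        rcases h2 with h | h
        · exact (le_min f1 h).trans (min_sum_le e _ _)
        · refine f1.trans (Finset.sum_le_sum fun i _ => le_min le_rfl (le_trans ?_ h))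
          have f3 := ED_le_max (pre (sh (T + o) (φ i x)) M) (pre (sh (T + o) (φ i y)) M)
          rwa [pre_length, pre_length, max_self] at f3
      have f3 : (S : ℝ) ≤ ∑ i ∈ range (b + 1), ((min (e i) (13 * T) : ℕ) : ℝ) := by
        exact_mod_cast f2
      have f4 : (26 : ℝ) * (b + 1 : ℕ) * 2 ^ (c + a0) ≤ S := by exact_mod_cast h1
      rw [← Finset.sum_div, Finset.sum_sub_distrib, Finset.sum_const, Finset.card_range,
        nsmul_eq_mul]
      linarith
    have h6 := (Finset.sum_le_sum h5).trans h4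
    rw [Finset.sum_const, Finset.card_range, nsmul_eq_mul] at h6
    have h7 := le_of_mul_le_mul_left h6 (by exact_mod_cast hT1)
    linarith
  · show 104 * ∑ i ∈ range (b + 1), E (φ i x) (φ i y) ≤ _
    obtain ⟨hx1, hx2, hx3⟩ := hxy
    set X := plc z (2 * T) m x with hX
    set Y := plc z (2 * T) m y with hY
    have g1 : ∀ t, t < 2 * T + p ∨ 2 * T + q < t → X t = Y t := fun t ht =>
      plc_congr z _ fun h1 h2 => by
        rcases ht with h | h
        · exact hx1 _ (by omega)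
        · exact hx3 _ (by omega) (by omega)
    have g2 : ∀ t, 2 * T + p ≤ t → t < 2 * T + q → Y t = X (t + 1) := fun t h1 h2 => by
      obtain ⟨r, rfl⟩ := Nat.exists_eq_add_of_le (show 2 * T ≤ t by omega)
      rw [hX, hY, Nat.add_assoc, plc_in z _ x (by omega), plc_in z _ y (by omega)]
      exact hx2 r (by omega) (by omega)
    have g3 : ∀ u, d (sh u X) (sh u Y) ≤ D := by
      intro u
      by_cases c1 : u + M ≤ 2 * T + p ∨ 2 * T + q < u
      · exact (hd.zero _ _ fun t ht => g1 _ (by omega)).le.trans hD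
      · exact hd.ub (2 * T + p - u) (min (2 * T + q - u) (M - 1)) _ _ (by omega) (by omega)
          ⟨fun t ht => g1 _ (by omega), fun t ht1 ht2 => g2 _ (by omega) (by omega),
            fun t ht1 ht2 => g1 _ (by omega)⟩
    set B : ℝ := 2 ^ 28 * c * 2 ^ c * D with hB
    have hB0 : 0 ≤ B := by positivity
    have hterm : ∀ i ∈ range (b + 1), E (φ i x) (φ i y) ≤ 688 * (2 ^ c) ^ 8 +
        ((if i ≤ (2 * T + p) / M ∧ (2 * T + p) / M < i + 5 then B else 0) +
          if i ≤ (2 * T + q) / M ∧ (2 * T + q) / M < i + 5 then B else 0) := by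
      intro i _
      have h0 : (0 : ℝ) ≤ 688 * (2 ^ c) ^ 8 := by positivity
      have hif : ∀ (P : Prop) [Decidable P], (0 : ℝ) ≤ if P then B else 0 := by
        intro P _
        split_ifs
        · exact hB0
        · exact le_rfl
      have i1 := hif (i ≤ (2 * T + p) / M ∧ (2 * T + p) / M < i + 5)
      have i2 := hif (i ≤ (2 * T + q) / M ∧ (2 * T + q) / M < i + 5)
      by_cases c1 : i * M + 5 * M ≤ 2 * T + p ∨ 2 * T + q < i * M
      · have := e2 (φ i x) (φ i y) fun t ht => g1 _ (by omega)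
        linarith
      by_cases c2 : 2 * T + p ≤ i * M ∧ i * M + 5 * M ≤ 2 * T + q
      · have := e3 (φ i x) (φ i y) fun t ht => g2 _ (by omega) (by omega)
        linarith
      have h1 := e4 (φ i x) (φ i y) fun u => by
        simp only [hφ]
        rw [← sh_add, ← sh_add]
        exact g3 _
      have h2 : ∀ r, i * M ≤ r → r < i * M + 5 * M → i ≤ r / M ∧ r / M < i + 5 := fun r h h' =>
        ⟨(Nat.le_div_iff_mul_le (by omega)).2 h,
          (Nat.div_lt_iff_lt_mul (by omega)).2 (by rw [Nat.add_mul]; exact h')⟩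
      by_cases c3 : i * M ≤ 2 * T + p
      · rw [if_pos (h2 _ c3 (by omega))]
        linarith
      · rw [if_pos (h2 (2 * T + q) (by omega) (by omega))]
        linarith
    have h1 := Finset.sum_le_sum hterm
    rw [Finset.sum_add_distrib, Finset.sum_add_distrib, Finset.sum_const, Finset.card_range,
      nsmul_eq_mul] at h1
    have h2 := count5 (b + 1) ((2 * T + p) / M) hB0
    have h3 := count5 (b + 1) ((2 * T + q) / M) hB0
    linarith

/-- One step of the recursion: from words of length `M` to words of length at most `b M`. -/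
theorem stepX [Finite A] (z : A) {M b m c : ℕ} (hm : m ≤ b * M) (hc : 1 ≤ c) {D : ℝ} (hD : 0 ≤ D)
    (hDκ : Real.exp 1 * (2 * D + 1) ≤ Real.exp (2 ^ c)) (hb : 26 * (b + 1) * 2 ^ c ≤ 2 ^ 2 ^ c)
    (h : ∀ a, ∃ d : (ℕ → A) → (ℕ → A) → ℝ, Good4 M a (2 ^ c) D d) (A0 : ℕ) :
    ∃ d : (ℕ → A) → (ℕ → A) → ℝ, Good4 m A0 (2 ^ c) (104 * ((b + 1 : ℕ) * (688 * (2 ^ c) ^ 8) +
      10 * (2 ^ 28 * c * 2 ^ c * (2 * D))) + (26 * (b + 1) * 2 ^ c : ℕ)) d := by
  classical
  set a0 := A0 - 2 ^ c with ha0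
  have key : ∃ e : (ℕ → A) → (ℕ → A) → ℝ, IsCut e ∧ (∀ x y, (∀ t < m, x t = y t) → e x y = 0) ∧
      (∀ a, a < A0 + 2 ^ c → 26 * (b + 1) * 2 ^ (c + a0) ≤ 2 ^ a →
        ∀ x y, 2 ^ a ≤ ED (pre x m) (pre y m) → ((2 ^ a : ℕ) : ℝ) ≤ e x y) ∧
      ∀ p q x y, p ≤ q → q < m → Sh m p q x y → e x y ≤
        104 * ((b + 1 : ℕ) * (688 * (2 ^ c) ^ 8) + 10 * (2 ^ 28 * c * 2 ^ c * (2 * D))) := by
    by_cases h0 : 2 ^ (c + a0) ≤ M
    · set g := Nat.findGreatest (fun g => 2 ^ (c + a0 + g) ≤ M) (2 * 2 ^ c) with hg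
      have hg1 : g ≤ 2 * 2 ^ c := Nat.findGreatest_le _
      have hg2 : 2 ^ (c + a0 + g) ≤ M :=
        Nat.findGreatest_spec (P := fun g => 2 ^ (c + a0 + g) ≤ M) (Nat.zero_le _) h0
      obtain ⟨d1, hd1⟩ := h (c + a0)
      obtain ⟨d2, hd2⟩ := h (c + a0 + 2 ^ c)
      obtain ⟨e, e1, e2, e3, e4⟩ := core z hm hc hg1 hg2 (by linarith) hDκ
        ((hd1.add hd2).mono hg1 le_rfl)
      refine ⟨e, e1, e2, fun a ha h1 => e3 _ h1 ?_, e4⟩
      rcases hg1.lt_or_eq with h2 | h2
      · right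
        have h3 : ¬ 2 ^ (c + a0 + (g + 1)) ≤ M :=
          Nat.findGreatest_is_greatest (P := fun g => 2 ^ (c + a0 + g) ≤ M) (Nat.lt_succ_self g) h2
        rw [← Nat.add_assoc, pow_succ] at h3
        omega
      · left
        have h3 : 2 ^ a ≤ 2 ^ (c + a0 + g) := Nat.pow_le_pow_right (by norm_num) (by omega)
        omega
    · refine ⟨fun _ _ => 0, IsCut.zero, fun _ _ _ => rfl, fun a _ h1 x y h2 => ?_,
        fun _ _ _ _ _ _ _ => by positivity⟩
      have h3 := ED_le_max (pre x m) (pre y m)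
      rw [pre_length, pre_length, max_self] at h3
      have h4 := Nat.mul_le_mul_left b (not_le.1 h0).le
      have h5 : 1 ≤ 2 ^ (c + a0) := Nat.one_le_two_pow
      nlinarith
  obtain ⟨e, e1, e2, e3, e4⟩ := key
  obtain ⟨f, f1, f2, f3, f4⟩ := disc (A := A) m
  set w : ℕ := 26 * (b + 1) * 2 ^ c with hw
  have hw0 : (0 : ℝ) ≤ w := Nat.cast_nonneg _
  refine ⟨fun x y => e x y + w * f x y, e1.add (f1.smul hw0), fun x y hxy => ?_,
    fun a h1 h2 x y h3 => ?_, fun p q x y h1 h2 h3 => ?_⟩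
  · show e x y + w * f x y = 0
    rw [e2 x y hxy, f2 x y hxy, mul_zero, add_zero]
  · show _ ≤ e x y + w * f x y
    have g1 := e1.nonneg x y
    have g2 := mul_le_mul_of_nonneg_left (f4 x y (le_trans Nat.one_le_two_pow h3)) hw0
    have g3 : (2 : ℝ) ^ a = (2 ^ a : ℕ) := by push_cast; rfl
    rw [g3]
    rcases Nat.le_total (2 ^ a) w with h4 | h4
    · have g4 : ((2 ^ a : ℕ) : ℝ) ≤ w := by exact_mod_cast h4
      linarith
    · have g4 := e3 a h2 ?_ x y h3
      · linarith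
      rcases Nat.le_total A0 (2 ^ c) with h5 | h5
      · rwa [show a0 = 0 by omega]
      · rw [pow_add, ← mul_assoc]
        refine (Nat.mul_le_mul_right _ hb).trans ?_
        rw [← pow_add]
        exact Nat.pow_le_pow_right (by norm_num) (by omega)
  · show e x y + w * f x y ≤ _
    have g1 := e4 p q x y h1 h2 h3
    have g2 := mul_le_mul_of_nonneg_left (f3 x y) hw0
    linarith

end Vale.Agent.N238X
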